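import Vale.Agent.P071.Stmt

open MeasureTheory Filter Topology

namespace Vale.Agent.P071

/-- `H¹(Ω)` is compactly embedded in `L²(Ω)`: every bounded sequence of `H¹(Ω)` has a subsequence
which converges in `L²(Ω)`. -/
def CompactEmbedding (Ω : Set ℂ) : Prop :=
  ∀ v gx gy : ℕ → ℂ → ℝ, (∀ n, IsH1 Ω (v n) (gx n) (gy n)) →
    (∃ C : ℝ, ∀ n, ∫ z in Ω, (v n z ^ 2 + gx n z ^ 2 + gy n z ^ 2) ≤ C) →
    ∃ (k : ℕ → ℕ) (w : ℂ → ℝ), StrictMono k ∧ MemLp w 2 (volume.restrict Ω) ∧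
      Tendsto (fun n => ∫ z in Ω, (v (k n) z - w z) ^ 2) atTop (𝓝 0)

end Vale.Agent.P071
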