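import Vale.Agent.P071.Bdl.B5
import Vale.Agent.P071.H969.EmbDef

set_option linter.all false

/-!
# Compact embedding of `H¹(Ω)` in `L²(Ω)` implies tightness
-/

open MeasureTheory Metric Filter Topology Real
open scoped ContDiff ENNReal

namespace Vale.Agent.P071

namespace NC

open Lim

/-- A compact exhaustion. -/
def KK (Ω : Set ℂ) (n : ℕ) : Set ℂ := {z | 1 / ((n : ℝ) + 1) ≤ infDist z Ωᶜ} ∩ closedBall 0 n

theorem KK_compact (Ω : Set ℂ) (n : ℕ) : IsCompact (KK Ω n) := by
  refine (isCompact_closedBall (0 : ℂ) n).of_isClosed_subset ?_ Set.inter_subset_right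
  exact (isClosed_le continuous_const (continuous_infDist_pt _)).inter isClosed_closedBall

theorem KK_sub {Ω : Set ℂ} (ho : IsOpen Ω) (n : ℕ) : KK Ω n ⊆ Ω := by
  intro z hz
  by_contra hcon
  have h1 : infDist z Ωᶜ = 0 := infDist_zero_of_mem hcon
  have h2 : 1 / ((n : ℝ) + 1) ≤ infDist z Ωᶜ := hz.1
  rw [h1] at h2
  have : 0 < 1 / ((n : ℝ) + 1) := by positivity
  linarith

theorem KK_ev {Ω : Set ℂ} (ho : IsOpen Ω) (hne : Ωᶜ.Nonempty) {z : ℂ} (hz : z ∈ Ω) :
    ∀ᶠ n : ℕ in atTop, z ∈ KK Ω n := by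
  have h1 : 0 < infDist z Ωᶜ := by
    refine (ho.isClosed_compl.notMem_iff_infDist_pos hne).1 ?_
    simpa using hz
  have h2 : ∀ᶠ n : ℕ in atTop, 1 / ((n : ℝ) + 1) < infDist z Ωᶜ :=
    (tendsto_one_div_add_atTop_nhds_zero_nat).eventually (gt_mem_nhds h1)
  have h3 : ∀ᶠ n : ℕ in atTop, ‖z‖ ≤ n := tendsto_natCast_atTop_atTop.eventually_ge_atTop _
  filter_upwards [h2, h3] with n h4 h5
  exact ⟨h4.le, mem_closedBall_zero_iff.2 h5⟩

/-- **Compact embedding implies tightness.** -/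
theorem tight_of_compactEmbedding {Ω : Set ℂ} (ho : IsOpen Ω) (hb : Bornology.IsBounded Ω)
    (hC : CompactEmbedding Ω) : Tight Ω := by
  intro δ hδ
  by_contra hcon
  push Not at hcon
  have hne : Ωᶜ.Nonempty := by
    rw [Set.nonempty_compl]
    rintro rfl
    exact NormedSpace.unbounded_univ ℝ ℂ hb
  have hmΩ : MeasurableSet Ω := ho.measurableSet
  have h1 := fun n => hcon (KK Ω n) (KK_compact Ω n) (KK_sub ho n)
  choose v hv hv2 hvg hlt using h1
  set N : ℕ → ℝ := fun n => ∫ z in Ω, (v n z ^ 2 + gsq (v n) z) with hN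
  have hN0 : ∀ n, 0 ≤ N n := fun n => integral_nonneg fun z => by
    have := gsq_nonneg_bd400 (v n) z
    show 0 ≤ v n z ^ 2 + gsq (v n) z
    positivity
  have hNpos : ∀ n, 0 < N n := by
    intro n
    refine lt_of_le_of_ne (hN0 n) fun h0 => ?_
    have h2 : ∫ z in Ω \ KK Ω n, v n z ^ 2 ≤ N n := by
      have h3 : ∫ z in Ω \ KK Ω n, v n z ^ 2 ≤ ∫ z in Ω, v n z ^ 2 :=
        setIntegral_mono_set (hv2 n) (Eventually.of_forall fun z => sq_nonneg _)
          (Set.sdiff_subset).eventuallyLE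
      have h4 : ∫ z in Ω, v n z ^ 2 ≤ N n :=
        setIntegral_mono (hv2 n) ((hv2 n).add (hvg n)) fun z => by
          have := gsq_nonneg_bd400 (v n) z
          show v n z ^ 2 ≤ v n z ^ 2 + gsq (v n) z
          linarith
      exact h3.trans h4
    have h5 := hlt n
    have h6 : N n = ∫ z in Ω, (v n z ^ 2 + gsq (v n) z) := rfl
    rw [← h6, ← h0, mul_zero] at h5
    rw [← h0] at h2
    linarith
  -- normalisation
  set s : ℕ → ℝ := fun n => 1 / √(N n) with hs
  have hs2 : ∀ n, s n ^ 2 * N n = 1 := fun n => by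
    simp only [hs]
    rw [div_pow, one_pow, Real.sq_sqrt (hN0 n)]
    field_simp [(hNpos n).ne']
  set w : ℕ → ℂ → ℝ := fun n z => s n * v n z with hw
  have hwv : ∀ n z, w n z ^ 2 = s n ^ 2 * v n z ^ 2 := fun n z => by simp only [hw]; ring
  have hwc : ∀ n, ContDiffOn ℝ 1 (w n) Ω := fun n => contDiffOn_const.mul (hv n)
  have hwg : ∀ n, ∀ z ∈ Ω, gsq (w n) z = s n ^ 2 * gsq (v n) z := by
    intro n z hz
    have hd : DifferentiableAt ℝ (v n) z :=
      ((hv n).differentiableOn (by norm_num)).differentiableAt (ho.mem_nhds hz)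
    simp only [hw]
    unfold gsq px py
    rw [fderiv_const_mul hd]
    simp only [smul_apply, smul_eq_mul]
    ring
  have hw2 : ∀ n, IntegrableOn (fun z => w n z ^ 2) Ω := fun n => by
    have : IntegrableOn (fun z => s n ^ 2 * v n z ^ 2) Ω := (hv2 n).const_mul _
    exact this.congr_fun (fun z _ => (hwv n z).symm) hmΩ
  have hwgi : ∀ n, IntegrableOn (gsq (w n)) Ω := fun n => by
    have : IntegrableOn (fun z => s n ^ 2 * gsq (v n) z) Ω := (hvg n).const_mul _
    exact this.congr_fun (fun z hz => (hwg n z hz).symm) hmΩ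
  have hH : ∀ n, IsH1 Ω (w n) (px (w n)) (py (w n)) := fun n =>
    isH1_of_c1 ho (hwc n) (hw2 n) (hwgi n)
  obtain ⟨k, u, hk, hu, hlim⟩ := hC w (fun n => px (w n)) (fun n => py (w n)) hH ⟨1, fun n => by
    have h2 : ∫ z in Ω, (w n z ^ 2 + px (w n) z ^ 2 + py (w n) z ^ 2) =
        ∫ z in Ω, s n ^ 2 * (v n z ^ 2 + gsq (v n) z) := by
      refine setIntegral_congr_fun hmΩ fun z hz => ?_
      have h3 := hwg n z hz
      unfold gsq at h3
      show w n z ^ 2 + px (w n) z ^ 2 + py (w n) z ^ 2 = s n ^ 2 * (v n z ^ 2 + gsq (v n) z)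
      rw [add_assoc, h3, hwv n z]
      unfold gsq
      ring
    rw [h2, integral_const_mul]
    exact (hs2 n).le⟩
  -- the contradiction
  have hu2 : IntegrableOn (fun z => u z ^ 2) Ω := hu.integrable_sq
  have hdiff : ∀ n, IntegrableOn (fun z => (w (k n) z - u z) ^ 2) Ω := fun n =>
    ((hH (k n)).v_mem.sub hu).integrable_sq
  have htail : Tendsto (fun n => ∫ z in Ω \ KK Ω (k n), u z ^ 2) atTop (𝓝 0) := by
    have h2 : ∀ n, ∫ z in Ω \ KK Ω (k n), u z ^ 2 =
        ∫ z in Ω, (KK Ω (k n))ᶜ.indicator (fun z => u z ^ 2) z := by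
      intro n
      rw [setIntegral_indicator (KK_compact Ω (k n)).measurableSet.compl]
      rfl
    simp only [h2]
    have h3 : Tendsto (fun n => ∫ z in Ω, (KK Ω (k n))ᶜ.indicator (fun z => u z ^ 2) z) atTop
        (𝓝 (∫ z in Ω, (0 : ℝ))) := by
      refine tendsto_integral_of_dominated_convergence (fun z => u z ^ 2) (fun n => ?_) hu2
        (fun n => Eventually.of_forall fun z => ?_) ?_
      · exact hu2.aestronglyMeasurable.indicator (KK_compact Ω (k n)).measurableSet.compl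
      · rw [Real.norm_eq_abs, abs_of_nonneg (Set.indicator_nonneg (fun z _ => sq_nonneg _) z)]
        exact Set.indicator_le_self' (fun z _ => sq_nonneg _) z
      · filter_upwards [ae_restrict_mem hmΩ] with z hz
        refine tendsto_const_nhds.congr' ?_
        filter_upwards [hk.tendsto_atTop.eventually (KK_ev ho hne hz)] with n hn
        rw [Set.indicator_of_notMem (by simpa using hn)]
    simpa using h3
  have hup : ∀ n, δ ≤ 2 * (∫ z in Ω, (w (k n) z - u z) ^ 2) +
      2 * ∫ z in Ω \ KK Ω (k n), u z ^ 2 := by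
    intro n
    have hsub : Ω \ KK Ω (k n) ⊆ Ω := Set.sdiff_subset
    have h2 : δ ≤ ∫ z in Ω \ KK Ω (k n), w (k n) z ^ 2 := by
      have h3 := hlt (k n)
      have h4 : ∫ z in Ω \ KK Ω (k n), w (k n) z ^ 2 =
          s (k n) ^ 2 * ∫ z in Ω \ KK Ω (k n), v (k n) z ^ 2 := by
        rw [← integral_const_mul]
        refine integral_congr_ae (Eventually.of_forall fun z => hwv (k n) z)
      rw [h4]
      have h5 : 0 ≤ s (k n) ^ 2 := sq_nonneg _
      calc δ = s (k n) ^ 2 * (δ * N (k n)) := by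
            rw [mul_left_comm, hs2, mul_one]
        _ ≤ _ := mul_le_mul_of_nonneg_left h3.le h5
    have h6 : ∫ z in Ω \ KK Ω (k n), w (k n) z ^ 2 ≤
        ∫ z in Ω \ KK Ω (k n), (2 * (w (k n) z - u z) ^ 2 + 2 * u z ^ 2) := by
      refine setIntegral_mono ((hw2 (k n)).mono_set hsub)
        ((((hdiff n).mono_set hsub).const_mul 2).add ((hu2.mono_set hsub).const_mul 2)) fun z => ?_
      show w (k n) z ^ 2 ≤ 2 * (w (k n) z - u z) ^ 2 + 2 * u z ^ 2
      nlinarith only [sq_nonneg (w (k n) z - 2 * u z)]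
    have h7 : ∫ z in Ω \ KK Ω (k n), (2 * (w (k n) z - u z) ^ 2 + 2 * u z ^ 2) =
        2 * (∫ z in Ω \ KK Ω (k n), (w (k n) z - u z) ^ 2) +
          2 * ∫ z in Ω \ KK Ω (k n), u z ^ 2 := by
      have i1 : IntegrableOn (fun z => 2 * (w (k n) z - u z) ^ 2) (Ω \ KK Ω (k n)) :=
        ((hdiff n).mono_set hsub).const_mul 2
      have i2 : IntegrableOn (fun z => 2 * u z ^ 2) (Ω \ KK Ω (k n)) :=
        (hu2.mono_set hsub).const_mul 2
      rw [integral_add i1 i2, integral_const_mul, integral_const_mul]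
    have h8 : ∫ z in Ω \ KK Ω (k n), (w (k n) z - u z) ^ 2 ≤ ∫ z in Ω, (w (k n) z - u z) ^ 2 :=
      setIntegral_mono_set (hdiff n) (Eventually.of_forall fun z => sq_nonneg _) hsub.eventuallyLE
    linarith
  have hlim2 := (hlim.const_mul 2).add (htail.const_mul 2)
  simp only [mul_zero, add_zero] at hlim2
  have := ge_of_tendsto' hlim2 hup
  linarith

end NC

end Vale.Agent.P071
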