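import Vale.Agent.P071.H969.Ineq
import Vale.Agent.P071.H969.Emb

set_option linter.all false

/-!
# Assembly
-/

open MeasureTheory Metric Filter Topology Real
open scoped ContDiff ENNReal

namespace Vale.Agent.P071.NC

open Lim

theorem InV.congr {Ω : Set ℂ} {u w : ℂ → ℝ} (hu : InV Ω u)
    (hw : ∀ᵐ z ∂(volume.restrict Ω), w z = u z) : InV Ω w := by
  obtain ⟨gx, gy, hH, hweak⟩ := hu
  refine ⟨gx, gy, Reg.IsH1.congr hH hw, fun v hx hy hv => ?_⟩
  rw [hweak v hx hy hv]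
  congr 1
  refine integral_congr_ae (hw.mono fun z hz => ?_)
  simp only
  rw [hz]

/-- The version of an element of `V(Ω)`. -/
theorem exists_version {Ω : Set ℂ} (ho : IsOpen Ω) {u : ℂ → ℝ} (hu : InV Ω u) :
    ∃ w : ℂ → ℝ, ContinuousOn w Ω ∧ (∀ᵐ z ∂(volume.restrict Ω), w z = u z) ∧ InV Ω w ∧
      (LipschitzBoundary Ω → ContinuousOn w (closure Ω)) := by
  by_cases hL : LipschitzBoundary Ω
  · obtain ⟨w, h1, h2, h3⟩ := Reg.InV.exists_continuous ho hL hu
    exact ⟨w, h1.mono subset_closure, h2, h3, fun _ => h1⟩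
  · obtain ⟨gx, gy, hH, hweak⟩ := id hu
    obtain ⟨w, hwc, hwu⟩ := Reg.exists_continuous_version ho hH (μ := muOne Ω)
      (fun φ h1 h2 _ => hweak φ (px φ) (py φ) (tgt_isH1_test ho h1 h2))
    exact ⟨w, hwc, hwu, InV.congr hu hwu, fun h => absurd h hL⟩

theorem tight_of_or {Ω : Set ℂ} (ho : IsOpen Ω) (hb : Bornology.IsBounded Ω)
    (h : LipschitzBoundary Ω ∨ CompactEmbedding Ω) : Tight Ω := by
  rcases h with h | h
  · exact tight_of_lipschitz ho hb h
  · exact tight_of_compactEmbedding ho hb h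

theorem proportional {Ω : Set ℂ} (ho : IsOpen Ω) (hb : Bornology.IsBounded Ω)
    (hs : IsSimplyConnected Ω) (hT : Tight Ω) {w v : ℂ → ℝ} (hw : InV Ω w) (hv : InV Ω v)
    (hc : ContinuousOn w Ω) (hc' : ContinuousOn v Ω) (h0 : ∃ z ∈ Ω, w z ≠ 0) {x : ℂ}
    (hx : x ∈ Ω) (hdet : px w x * py v x = py w x * px v x) :
    ∃ c : ℝ, ∀ z ∈ Ω, v z = c * w z := by
  obtain ⟨a, b, hab, h⟩ := jacobian ho hb hs hT hw hv hc hc' hx hdet
  have hb0 : b ≠ 0 := by
    rintro rfl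
    obtain ⟨z, hz, hwz⟩ := h0
    have ha : a ≠ 0 := by simpa using hab
    have := h z hz
    rw [zero_mul, add_zero] at this
    exact (mul_ne_zero ha hwz) this
  refine ⟨-a / b, fun z hz => ?_⟩
  have := h z hz
  field_simp
  linarith

end Vale.Agent.P071.NC
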