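import Vale.Agent.P071.H969.NoCrit
import Vale.Agent.P071.Bdl.B11

set_option linter.all false

/-!
# No interior critical points for first Neumann eigenfunctions of simply connected domains
-/

open MeasureTheory Metric Filter Topology Real
open scoped ContDiff ENNReal

namespace Vale.Agent.P071.NC

open Lim

/-- Positivity of `μ₁` for tight domains. -/
theorem muOne_pos_of_tight {Ω : Set ℂ} {f F : ℂ → ℂ} (hf : Conf f F) (hΩ : f '' DD = Ω)
    (hb : Bornology.IsBounded Ω) (hT : Tight Ω) : 0 < muOne Ω := by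
  have hΩo : IsOpen Ω := hΩ ▸ MuAux.conf_isOpen hf
  have hT' : Tight (f '' DD) := by rw [hΩ]; exact hT
  obtain ⟨m₀, hm, hU⟩ := uniform_poincare hf (tailU_of_tailF hf (tailF_of_tight hf hT'))
  have hP := hU (fun _ => 1) continuous_const (fun z _ => ⟨by norm_num, by norm_num⟩)
  have hne : Ω.Nonempty := by
    rw [← hΩ]
    exact ⟨f 0, 0, by simp, rfl⟩
  obtain ⟨v, gx, gy, hv, hv0, hvp⟩ := exists_test hΩo hne hb
  refine lt_of_lt_of_le hm (le_csInf ⟨_, v, gx, gy, hv, hv0, hvp, rfl⟩ ?_)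
  rintro q ⟨v, gx, gy, hv, hv0, hvp, rfl⟩
  rw [le_div_iff₀ hvp]
  exact h1_poincare hf hΩ hP hv hv0

/-- The Riemann map and its properties. -/
theorem setup {Ω : Set ℂ} (ho : IsOpen Ω) (hb : Bornology.IsBounded Ω) (hs : IsSimplyConnected Ω)
    (hT : Tight Ω) : ∃ f : ℂ → ℂ, Conf f (deriv f) ∧ f '' DD = Ω ∧ TailU (deriv f) ∧
      0 < muOne Ω := by
  have huniv : Ω ≠ Set.univ := by
    rintro rfl
    exact NormedSpace.unbounded_univ ℝ ℂ hb
  obtain ⟨f, hfd, hfi, hfΩ, hf0⟩ := RMT.riemann_mapping ho hs huniv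
  have hf : Conf f (deriv f) :=
    { deriv := fun z hz => (hfd.differentiableAt (isOpen_ball.mem_nhds hz)).hasDerivAt
      ne_zero := hf0
      inj := hfi
      bdd := by
        obtain ⟨C, hC⟩ := hb.exists_norm_le
        exact ⟨C, fun z hz => hC _ (hfΩ ▸ Set.mem_image_of_mem f hz)⟩ }
  have hTight : Tight (f '' DD) := hfΩ ▸ hT
  exact ⟨f, hf, hfΩ, tailU_of_tailF hf (tailF_of_tight hf hTight),
    muOne_pos_of_tight hf hfΩ hb hT⟩

theorem smooth_of_inV {Ω : Set ℂ} (ho : IsOpen Ω) {u : ℂ → ℝ} (hu : InV Ω u)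
    (hc : ContinuousOn u Ω) : ContDiffOn ℝ 2 u Ω ∧ ∀ z ∈ Ω, -Lim.lap u z = muOne Ω * u z := by
  obtain ⟨gx, gy, hH, hw⟩ := hu
  obtain ⟨hsm, heq, -⟩ := reg_H1 ho hH hc (μ := muOne Ω) (fun φ h1 h2 _ =>
    hw φ (px φ) (py φ) (tgt_isH1_test ho h1 h2))
  exact ⟨hsm, heq⟩

/-- **No interior critical points**, for tight simply connected domains. -/
theorem no_crit {Ω : Set ℂ} (ho : IsOpen Ω) (hb : Bornology.IsBounded Ω)
    (hs : IsSimplyConnected Ω) (hT : Tight Ω) {u : ℂ → ℝ} (hu : InV Ω u)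
    (hc : ContinuousOn u Ω) (h0 : ∃ z ∈ Ω, u z ≠ 0) : ∀ x ∈ Ω, fderiv ℝ u x ≠ 0 := by
  obtain ⟨f, hf, hfΩ, hTU, hμ⟩ := setup ho hb hs hT
  obtain ⟨c, hc0, hU⟩ := target_of_inV hf hfΩ hμ hu hc h0
  obtain ⟨hsm, -⟩ := smooth_of_inV ho hu hc
  intro x hx hx0
  obtain ⟨z, hz, rfl⟩ : x ∈ f '' DD := by rw [hfΩ]; exact hx
  apply target_no_crit_of hf hTU (G.disc_thmN hf) hU hz
  have hud : DifferentiableAt ℝ u (f z) :=
    (hsm.differentiableOn (by norm_num)).differentiableAt (ho.mem_nhds hx)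
  have hfd : HasFDerivAt f _ z := ((hf.deriv z hz).hasFDerivAt).restrictScalars ℝ
  have h1 : HasFDerivAt (fun y => u (f y)) _ z := hud.hasFDerivAt.comp z hfd
  have h2 : HasFDerivAt (fun y => c * u (f y)) _ z := h1.const_mul c
  have h3 : fderiv ℝ (fun y => c * u (f y)) z = 0 := by
    rw [h2.fderiv, hx0]
    simp
  simp [gsq, px, py, h3]

/-! ### `V(Ω)` is a vector space -/

theorem IsH1.lin {Ω : Set ℂ} {u gx gy v hx hy : ℂ → ℝ} (hu : IsH1 Ω u gx gy)
    (hv : IsH1 Ω v hx hy) (a b : ℝ) :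
    IsH1 Ω (fun z => a * u z + b * v z) (fun z => a * gx z + b * hx z)
      (fun z => a * gy z + b * hy z) where
  v_mem := (hu.v_mem.const_mul a).add (hv.v_mem.const_mul b)
  gx_mem := (hu.gx_mem.const_mul a).add (hv.gx_mem.const_mul b)
  gy_mem := (hu.gy_mem.const_mul a).add (hv.gy_mem.const_mul b)
  weak_x φ h1 h2 h3 := by
    have hφ : MemLp φ 2 (volume.restrict Ω) := (h1.continuous.memLp_of_hasCompactSupport h2).restrict Ω
    have hpc : Continuous (px φ) := (h1.continuous_fderiv (by simp)).clm_apply continuous_const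
    have hps : HasCompactSupport (px φ) := h2.fderiv_apply ℝ 1
    have hp : MemLp (px φ) 2 (volume.restrict Ω) := (hpc.memLp_of_hasCompactSupport hps).restrict Ω
    have e1 : ∀ (w k : ℂ → ℝ) (ψ : ℂ → ℝ), MemLp w 2 (volume.restrict Ω) →
        MemLp k 2 (volume.restrict Ω) → MemLp ψ 2 (volume.restrict Ω) →
        ∫ z in Ω, (a * w z + b * k z) * ψ z = a * (∫ z in Ω, w z * ψ z) + b * ∫ z in Ω, k z * ψ z := by
      intro w k ψ hw hk hψ
      have i1 : Integrable (fun z => w z * ψ z) (volume.restrict Ω) := hw.integrable_mul hψ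
      have i2 : Integrable (fun z => k z * ψ z) (volume.restrict Ω) := hk.integrable_mul hψ
      rw [← integral_const_mul, ← integral_const_mul, ← integral_add (i1.const_mul a) (i2.const_mul b)]
      refine integral_congr_ae (Eventually.of_forall fun z => ?_)
      simp only; ring
    rw [e1 _ _ _ hu.v_mem hv.v_mem hp, e1 _ _ _ hu.gx_mem hv.gx_mem hφ, hu.weak_x φ h1 h2 h3,
      hv.weak_x φ h1 h2 h3]
    ring
  weak_y φ h1 h2 h3 := by
    have hφ : MemLp φ 2 (volume.restrict Ω) := (h1.continuous.memLp_of_hasCompactSupport h2).restrict Ω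
    have hpc : Continuous (py φ) := (h1.continuous_fderiv (by simp)).clm_apply continuous_const
    have hps : HasCompactSupport (py φ) := h2.fderiv_apply ℝ Complex.I
    have hp : MemLp (py φ) 2 (volume.restrict Ω) := (hpc.memLp_of_hasCompactSupport hps).restrict Ω
    have e1 : ∀ (w k : ℂ → ℝ) (ψ : ℂ → ℝ), MemLp w 2 (volume.restrict Ω) →
        MemLp k 2 (volume.restrict Ω) → MemLp ψ 2 (volume.restrict Ω) →
        ∫ z in Ω, (a * w z + b * k z) * ψ z = a * (∫ z in Ω, w z * ψ z) + b * ∫ z in Ω, k z * ψ z := by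
      intro w k ψ hw hk hψ
      have i1 : Integrable (fun z => w z * ψ z) (volume.restrict Ω) := hw.integrable_mul hψ
      have i2 : Integrable (fun z => k z * ψ z) (volume.restrict Ω) := hk.integrable_mul hψ
      rw [← integral_const_mul, ← integral_const_mul, ← integral_add (i1.const_mul a) (i2.const_mul b)]
      refine integral_congr_ae (Eventually.of_forall fun z => ?_)
      simp only; ring
    rw [e1 _ _ _ hu.v_mem hv.v_mem hp, e1 _ _ _ hu.gy_mem hv.gy_mem hφ, hu.weak_y φ h1 h2 h3,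
      hv.weak_y φ h1 h2 h3]
    ring

theorem InV.lin {Ω : Set ℂ} {u v : ℂ → ℝ} (hu : InV Ω u) (hv : InV Ω v) (a b : ℝ) :
    InV Ω (fun z => a * u z + b * v z) := by
  obtain ⟨gx, gy, hH, hw⟩ := hu
  obtain ⟨hx, hy, hK, hw'⟩ := hv
  refine ⟨_, _, IsH1.lin hH hK a b, fun k kx ky hk => ?_⟩
  have e1 := hw k kx ky hk
  have e2 := hw' k kx ky hk
  have i1 : Integrable (fun z => gx z * kx z + gy z * ky z) (volume.restrict Ω) :=
    (hH.gx_mem.integrable_mul hk.gx_mem).add (hH.gy_mem.integrable_mul hk.gy_mem)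
  have i2 : Integrable (fun z => hx z * kx z + hy z * ky z) (volume.restrict Ω) :=
    (hK.gx_mem.integrable_mul hk.gx_mem).add (hK.gy_mem.integrable_mul hk.gy_mem)
  have i3 : Integrable (fun z => u z * k z) (volume.restrict Ω) := hH.v_mem.integrable_mul hk.v_mem
  have i4 : Integrable (fun z => v z * k z) (volume.restrict Ω) := hK.v_mem.integrable_mul hk.v_mem
  have l1 : ∫ z in Ω, ((a * gx z + b * hx z) * kx z + (a * gy z + b * hy z) * ky z) =
      a * (∫ z in Ω, (gx z * kx z + gy z * ky z)) + b * ∫ z in Ω, (hx z * kx z + hy z * ky z) := by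
    rw [← integral_const_mul, ← integral_const_mul, ← integral_add (i1.const_mul a) (i2.const_mul b)]
    refine integral_congr_ae (Eventually.of_forall fun z => ?_)
    simp only; ring
  have l2 : ∫ z in Ω, (a * u z + b * v z) * k z =
      a * (∫ z in Ω, u z * k z) + b * ∫ z in Ω, v z * k z := by
    rw [← integral_const_mul, ← integral_const_mul, ← integral_add (i3.const_mul a) (i4.const_mul b)]
    refine integral_congr_ae (Eventually.of_forall fun z => ?_)
    simp only; ring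
  rw [l1, l2, e1, e2]
  ring

/-- Two elements of `V(Ω)` whose gradients are parallel at one interior point are proportional. -/
theorem jacobian {Ω : Set ℂ} (ho : IsOpen Ω) (hb : Bornology.IsBounded Ω)
    (hs : IsSimplyConnected Ω) (hT : Tight Ω) {u v : ℂ → ℝ} (hu : InV Ω u) (hv : InV Ω v)
    (hc : ContinuousOn u Ω) (hc' : ContinuousOn v Ω) {x : ℂ} (hx : x ∈ Ω)
    (hdet : px u x * py v x = py u x * px v x) :
    ∃ a b : ℝ, (a ≠ 0 ∨ b ≠ 0) ∧ ∀ z ∈ Ω, a * u z + b * v z = 0 := by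
  obtain ⟨hsm, -⟩ := smooth_of_inV ho hu hc
  obtain ⟨hsm', -⟩ := smooth_of_inV ho hv hc'
  have hud : DifferentiableAt ℝ u x :=
    (hsm.differentiableOn (by norm_num)).differentiableAt (ho.mem_nhds hx)
  have hvd : DifferentiableAt ℝ v x :=
    (hsm'.differentiableOn (by norm_num)).differentiableAt (ho.mem_nhds hx)
  obtain ⟨a, b, hab, h1, h2⟩ : ∃ a b : ℝ, (a ≠ 0 ∨ b ≠ 0) ∧ a * px u x + b * px v x = 0 ∧
      a * py u x + b * py v x = 0 := by
    by_cases h : px u x = 0 ∧ px v x = 0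
    · by_cases h' : py u x = 0 ∧ py v x = 0
      · exact ⟨1, 0, Or.inl one_ne_zero, by rw [h.1, h.2]; ring, by rw [h'.1, h'.2]; ring⟩
      · refine ⟨py v x, -py u x, ?_, by rw [h.1, h.2]; ring, by ring⟩
        by_contra hcon
        push Not at hcon
        exact h' ⟨by linarith [hcon.2], hcon.1⟩
    · refine ⟨px v x, -px u x, ?_, by ring, by linarith⟩
      by_contra hcon
      push Not at hcon
      exact h ⟨by linarith [hcon.2], hcon.1⟩
  refine ⟨a, b, hab, ?_⟩
  by_contra hcon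
  push Not at hcon
  have hcw : ContinuousOn (fun z => a * u z + b * v z) Ω :=
    (continuousOn_const.mul hc).add (continuousOn_const.mul hc')
  apply no_crit ho hb hs hT (InV.lin hu hv a b) hcw hcon x hx
  have h3 : fderiv ℝ (fun z => a * u z + b * v z) x = a • fderiv ℝ u x + b • fderiv ℝ v x := by
    rw [fderiv_fun_add (hud.const_mul a) (hvd.const_mul b), fderiv_const_mul hud,
      fderiv_const_mul hvd]
  rw [h3]
  ext w
  have e : ∀ L : ℂ →L[ℝ] ℝ, L w = w.re * L 1 + w.im * L Complex.I := by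
    intro L
    conv_lhs => rw [← Complex.re_add_im w]
    rw [map_add]
    congr 1
    · rw [show (w.re : ℂ) = w.re • (1 : ℂ) by simp, map_smul, smul_eq_mul]
    · rw [show (w.im : ℂ) * Complex.I = w.im • Complex.I by simp, map_smul, smul_eq_mul]
  simp only [add_apply, smul_apply, smul_eq_mul, zero_apply]
  rw [e (fderiv ℝ u x), e (fderiv ℝ v x)]
  unfold px at h1
  unfold py at h2
  linear_combination w.re * h1 + w.im * h2

end Vale.Agent.P071.NC
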