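import Mathlib.Analysis.Complex.BranchLogRoot
import Mathlib.Analysis.Convex.Contractible
import Vale.Agent.P071.MathlibUsed

/-!
# A nonvanishing continuous function on a disc does not wind around a circle
-/

open Metric Filter Topology

namespace Vale.Agent.P071.Lim

theorem no_winding {h : ℂ → ℂ} {U : Set ℂ} (hUo : IsOpen U) (hUc : Convex ℝ U) {z₀ a : ℂ}
    {ρ : ℝ} {m : ℕ} (hρ : 0 < ρ) (hm : 1 ≤ m) (hsub : closedBall z₀ ρ ⊆ U)
    (hc : ContinuousOn h U) (h0 : ∀ z ∈ U, h z ≠ 0)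
    (hb : ∀ z ∈ sphere z₀ ρ, ‖h z - a * (z - z₀) ^ m‖ < ‖a * (z - z₀) ^ m‖) : False := by
  have hz₀ : z₀ ∈ U := hsub (mem_closedBall_self hρ.le)
  have hcs : ContractibleSpace U := hUc.contractibleSpace ⟨z₀, hz₀⟩
  have hsc : IsSimplyConnected U := SimplyConnectedSpace.ofContractible U
  obtain ⟨L, hL, hLe⟩ := Complex.exists_continuousOn_eqOn_exp_comp hsc hUo hc
    (by rintro ⟨z, hz, h1⟩; exact h0 z hz h1)
  set p : ℝ → ℂ := fun θ => z₀ + ρ * Complex.exp (θ * Complex.I) with hpdef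
  have hpz : ∀ θ, p θ - z₀ = ρ * Complex.exp (θ * Complex.I) := fun θ => by
    simp only [hpdef]; ring
  have hp : ∀ θ, p θ ∈ sphere z₀ ρ := fun θ => by
    rw [mem_sphere_iff_norm, hpz, norm_mul, Complex.norm_exp_ofReal_mul_I, mul_one,
      Complex.norm_real, Real.norm_of_nonneg hρ.le]
  have hpU : ∀ θ, p θ ∈ U := fun θ => hsub (sphere_subset_closedBall (hp θ))
  have hpc : Continuous p := by
    simp only [hpdef]; fun_prop
  have ha0 : a ≠ 0 := by
    rintro rfl
    have := hb _ (hp 0)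
    simp only [zero_mul, norm_zero] at this
    exact absurd this (not_lt.2 (norm_nonneg _))
  have hρc : (ρ : ℂ) ≠ 0 := by exact_mod_cast hρ.ne'
  have hden : ∀ θ, a * (p θ - z₀) ^ m ≠ 0 := fun θ => by
    refine mul_ne_zero ha0 (pow_ne_zero _ ?_)
    rw [hpz]
    exact mul_ne_zero hρc (Complex.exp_ne_zero _)
  set q : ℝ → ℂ := fun θ => h (p θ) / (a * (p θ - z₀) ^ m) with hqdef
  have hq : ∀ θ, ‖q θ - 1‖ < 1 := fun θ => by
    have e : q θ - 1 = (h (p θ) - a * (p θ - z₀) ^ m) / (a * (p θ - z₀) ^ m) := by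
      simp only [hqdef]
      rw [sub_div, div_self (hden θ)]
    rw [e, norm_div, div_lt_one (norm_pos_iff.2 (hden θ))]
    exact hb _ (hp θ)
  have hqs : ∀ θ, q θ ∈ Complex.slitPlane := fun θ => by
    rw [Complex.mem_slitPlane_iff]
    left
    have h1 : |(q θ - 1).re| ≤ ‖q θ - 1‖ := Complex.abs_re_le_norm _
    have h2 := (abs_le.1 h1).1
    have h3 := hq θ
    simp only [Complex.sub_re, Complex.one_re] at h2
    linarith
  have hqc : Continuous q := by
    have h1 : Continuous fun θ => h (p θ) := hc.comp_continuous hpc hpU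
    exact h1.div ((continuous_const.mul ((hpc.sub continuous_const).pow m))) hden
  have hlq : Continuous fun θ => Complex.log (q θ) := hqc.clog hqs
  have hLc : Continuous fun θ => L (p θ) := hL.comp_continuous hpc hpU
  set A : ℂ := a * (ρ : ℂ) ^ m with hA
  have hA0 : A ≠ 0 := mul_ne_zero ha0 (pow_ne_zero _ hρc)
  set Λ : ℝ → ℂ := fun θ => L (p θ) - Complex.log (q θ) - Complex.log A with hΛ
  have hexp : ∀ θ, Complex.exp (Λ θ) = Complex.exp (m * (θ * Complex.I)) := fun θ => by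
    have hq0 : q θ ≠ 0 := Complex.slitPlane_ne_zero (hqs θ)
    have e1 : Complex.exp (L (p θ)) = h (p θ) := hLe (hpU θ)
    simp only [hΛ]
    rw [Complex.exp_sub, Complex.exp_sub, e1, Complex.exp_log hq0, Complex.exp_log hA0,
      div_div, div_eq_iff (mul_ne_zero hq0 hA0)]
    have e2 : h (p θ) = q θ * (a * (p θ - z₀) ^ m) := by
      simp only [hqdef]
      rw [div_mul_cancel₀ _ (hden θ)]
    rw [e2, hpz, mul_pow, ← Complex.exp_nat_mul, hA]
    ring
  set c : ℝ → ℝ := fun θ => (Λ θ).im - m * θ with hcdef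
  have hcc : Continuous c := by
    simp only [hcdef, hΛ]
    exact (Complex.continuous_im.comp ((hLc.sub hlq).sub continuous_const)).sub (by fun_prop)
  have hint : ∀ θ, ∃ n : ℤ, c θ = n * (2 * Real.pi) := fun θ => by
    obtain ⟨n, hn⟩ := Complex.exp_eq_exp_iff_exists_int.1 (hexp θ)
    refine ⟨n, ?_⟩
    simp only [hcdef]
    rw [hn]
    simp
  have hper : p (2 * Real.pi) = p 0 := by
    simp only [hpdef]
    have : Complex.exp (((2 * Real.pi : ℝ) : ℂ) * Complex.I) = 1 := by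
      push_cast; exact Complex.exp_two_pi_mul_I
    rw [this]
    simp
  have hc2 : c (2 * Real.pi) = c 0 - m * (2 * Real.pi) := by
    simp only [hcdef, hΛ, hqdef, hper]
    ring
  have hm' : (1 : ℝ) ≤ m := by exact_mod_cast hm
  have hpi := Real.pi_pos
  obtain ⟨θ, -, hθ⟩ : c 0 - Real.pi ∈ c '' Set.Icc 0 (2 * Real.pi) := by
    refine intermediate_value_Icc' (by linarith) hcc.continuousOn ⟨?_, by linarith⟩
    rw [hc2]
    nlinarith
  obtain ⟨n, hn⟩ := hint θ
  obtain ⟨k, hk⟩ := hint 0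
  rw [hn, hk] at hθ
  have h1 : ((2 * n - 2 * k + 1 : ℤ) : ℝ) * Real.pi = 0 := by
    push_cast; linarith
  rcases mul_eq_zero.1 h1 with h2 | h2
  · have h3 : 2 * n - 2 * k + 1 = 0 := by exact_mod_cast h2
    omega
  · exact hpi.ne' h2

end Vale.Agent.P071.Lim
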