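import Vale.Agent.P071.Bdl.B10
import Vale.Agent.P071.Bdl.B9

set_option linter.all false

/-!
# The disc theorem, with the additional conclusion that the eigenfunction has no critical point
-/

open MeasureTheory Metric
open scoped ContDiff ENNReal ComplexConjugate

namespace Vale.Agent.P071.Lim

/-- The disc theorem with the additional conclusion that the eigenfunction `u` has no critical
point in the open disc. -/
def DiscThmN (f F : ℂ → ℂ) : Prop :=
  ∀ ρ : ℂ → ℝ, IsPolyFun ρ → (∃ c > 0, ∀ z ∈ DD, c ≤ ρ (f z)) →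
    ∀ m m' : ℝ, 0 < m → m < m' →
    (∀ z ∈ DD, -m * ρ (f z) ^ 3 ≤ ρ (f z) * lap ρ (f z) - gsq ρ (f z)) →
    (∀ r : ℝ, 0 < r → r < 1 → ∀ φ : ℂ → ℝ, BG φ → ∫ z in DD, kap f F ρ r z * φ z = 0 →
      m' * ∫ z in DD, kap f F ρ r z * φ z ^ 2 ≤ ∫ z in DD, gsq φ z) →
    ∀ r : ℝ, 0 < r → r < 1 → ∃ (μ : ℝ) (u : ℂ → ℝ),
      DiscMin (kap f F ρ r) μ u ∧ IneqI DD (kap f F ρ r) μ u ∧ ∀ z ∈ DD, gsq u z ≠ 0

end Vale.Agent.P071.Lim

open scoped ComplexConjugate Topology Real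
open Filter Metric MeasureTheory

noncomputable section

namespace Vale.Agent.P071.G

variable {p q : ℕ}

theorem gsq_ne_of_good {w u : Y 8} {v : Y 4} {c : ℝ} (hw : AdW w) (h : Tri w u v c)
    (hg : Good w u v c) {z : ℂ} (hz : z ∈ Lim.DD) {r b : ℝ} (hr : 0 < r) (hb : 0 < b) :
    Lim.gsq (fun z => r⁻¹ * (b * (ev u z).re)) z ≠ 0 := by
  have hz' : ‖z‖ < 1 := mem_ball_zero_iff.1 hz
  have H := pairAt_of_tri hw h hz'
  have hJ := hg.ge z hz'.le
  have hψ := hg.pos z hz'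
  have hwz := hw.pos z hz'.le
  have hJ0 : 0 < jac (ev (dz 7 u) z) (ev (dz 3 v) z) := by
    have e1 : J (i84 u) v z = jac (ev (dz 7 u) z) (ev (dz 3 v) z) := by
      unfold J i84
      rw [dz_incl (by norm_num : 3 ≤ 7), ev_incl]
    rw [← e1]
    exact lt_of_lt_of_le (by (clear * - hwz hψ; positivity)) hJ
  have hP : ev (dz 7 u) z ≠ 0 := by
    intro h0
    rw [h0] at hJ0
    simp [jac] at hJ0
  have g2 : Lim.gsq (rv u) z = 4 * Complex.normSq (ev (dz 7 u) z) := gsq_of_hasW H.hu.self_of_nhds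
  have hd : DifferentiableAt ℝ (rv u) z := by
    have := contDiffOn_ev 8 u
    have h3 : ContDiffOn ℝ 1 (ev u) (ball 0 1) :=
      (this.mono ball_subset_closedBall).of_le (by norm_num)
    have h4 : ContDiffOn ℝ 1 (rv u) (ball 0 1) := Complex.reCLM.contDiff.comp_contDiffOn h3
    exact (h4.differentiableOn (by norm_num)).differentiableAt (isOpen_ball.mem_nhds hz)
  have e : (fun z => r⁻¹ * (b * (ev u z).re)) = fun z => (r⁻¹ * b) * rv u z := by
    funext y; unfold rv; ring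
  have hgs : Lim.gsq (fun z => (r⁻¹ * b) * rv u z) z = (r⁻¹ * b) ^ 2 * Lim.gsq (rv u) z := by
    unfold Lim.gsq px py
    rw [fderiv_const_mul hd]
    simp only [smul_apply, smul_eq_mul]
    ring
  rw [e, hgs, g2]
  have h5 : 0 < Complex.normSq (ev (dz 7 u) z) := Complex.normSq_pos.2 hP
  have h6 : 0 < r⁻¹ * b := by positivity
  positivity

theorem disc_thmN {f F : ℂ → ℂ} (hf : Lim.Conf f F) : Lim.DiscThmN f F := by
  intro ρ hρ hc m m' hm hmm hcurv hpoin r hr0 hr1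
  obtain ⟨c, hc, hρc⟩ := hc
  have hρpos : ∀ z ∈ Lim.DD, 0 < ρ (f z) := fun z hz => hc.trans_le (hρc z hz)
  obtain ⟨a, ha1, ha2⟩ := Ends.exists_weight 8 hf hρ hr0.le hr1
  have hwpos : ∀ t : ℝ, 0 ≤ t → t < 1 → ∀ z : ℂ, ‖z‖ ≤ 1 → (t : ℂ) * z ∈ Lim.DD := by
    intro t h0 h1 z hz
    rw [mem_ball_zero_iff, norm_mul, Complex.norm_real, Real.norm_eq_abs, abs_of_nonneg h0]
    calc t * ‖z‖ ≤ t * 1 := by (clear * - hz h0; gcongr)
      _ < 1 := by linarith only [h1]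
  have hW : IsW a := ⟨ha1, fun z hz => by
    rw [ha2 z hz, Complex.ofReal_re]
    have h1 := hwpos r hr0.le hr1 z hz
    have h2 := hρpos _ h1
    have h3 := norm_pos_iff.2 (hf.ne_zero _ h1)
    (clear * - h3 h2; positivity)⟩
  set k : ℝ → Y 8 := Ends.path a with hk
  have hkW : ∀ s, IsW (k s) := isW_path hW
  have hev : ∀ s : ℝ, 0 ≤ s → s ≤ 1 → ∀ z : ℂ, ‖z‖ ≤ 1 → ev (k s) z =
      ((‖F (((r * s : ℝ) : ℂ) * z)‖ ^ 2 * ρ (f (((r * s : ℝ) : ℂ) * z)) : ℝ) : ℂ) := by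
    intro s h0 h1 z hz
    rw [hk, Ends.ev_path a h0 h1, ha2]
    · have : (r : ℂ) * (s * z) = ((r * s : ℝ) : ℂ) * z := by push_cast; ring
      rw [this]
    · rw [norm_mul, Complex.norm_real, Real.norm_eq_abs, abs_of_nonneg h0]
      exact mul_le_one₀ h1 (norm_nonneg _) hz
  have hV0 : ∀ s, ∃ u, IsV ((mu1 (k s) : ℂ) • k s) u ∧ u ≠ 0 := by
    intro s
    obtain ⟨u, hu, hE⟩ := exists_isEig (hkW s)
    exact ⟨u, isV_of_isEig hE, hu⟩
  have hDM : ∀ s, ∀ u : Y 8, IsV ((mu1 (k s) : ℂ) • k s) u → u ≠ 0 → ∃ c : ℝ, 0 < c ∧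
      Lim.DiscMin (fun z => (ev (k s) z).re) (mu1 (k s)) (fun z => c * (ev u z).re) := by
    intro s u hu hu0
    refine discMin_of_series (p := 6) (hkW s) hu.real hu0 ?_ hu.neu
    rw [hu.eqn, map_smul, ser_smul_mul, ← incl_mul]
  have hmu : ∀ s : ℝ, 0 ≤ s → s ≤ 1 → m' * (r * s) ^ 2 ≤ mu1 (k s) := by
    intro s h0 h1
    rcases h0.eq_or_lt with h | h
    · rw [← h, mul_zero]
      calc m' * 0 ^ 2 = 0 := by norm_num
        _ ≤ _ := (mu1_pos (hkW 0)).le
    · obtain ⟨u, hu, hu0⟩ := hV0 s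
      obtain ⟨c, hc, hD⟩ := hDM s u hu hu0
      have hrs0 : 0 < r * s := by (clear * - hr0 h; positivity)
      have hrs1 : r * s < 1 := by nlinarith only [hr1, hr0, h1]
      have hkap : ∀ z ∈ Lim.DD, Lim.kap f F ρ (r * s) z = (r * s) ^ 2 * (ev (k s) z).re := by
        intro z hz
        rw [hev s h0 h1 z (mem_ball_zero_iff.1 hz).le, Complex.ofReal_re]
        unfold Lim.kap
        ring
      have hp := hpoin (r * s) hrs0 hrs1 _ hD.bg (by
        rw [setIntegral_congr_fun (g := fun z => (r * s) ^ 2 *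
          ((ev (k s) z).re * (c * (ev u z).re))) measurableSet_ball
          (fun z hz => by simp only [hkap z hz]; ring), integral_const_mul, hD.mean, mul_zero])
      rw [setIntegral_congr_fun (g := fun z => (r * s) ^ 2 *
          ((ev (k s) z).re * (c * (ev u z).re) ^ 2)) measurableSet_ball
          (fun z hz => by simp only [hkap z hz]; ring), integral_const_mul, hD.norm, mul_one,
          hD.energy] at hp
      exact hp
  have hadw : ∀ s ∈ Set.Icc (0 : ℝ) 1, AdW ((mu1 (k s) : ℂ) • k s) := by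
    intro s hs
    have hrs0 : 0 ≤ r * s := mul_nonneg hr0.le hs.1
    have hrs1 : r * s < 1 := by nlinarith only [hr1, hr0, hs.2]
    exact adW_of_curv (hkW s) fun z hz => Ends.curv_of hf hρ hρpos hmm hcurv hrs0 hrs1
      (hev s hs.1 hs.2) (mu1_pos (hkW s)) (hmu s hs.1 hs.2) z hz
  have hbase : GoodW ((mu1 (k 0) : ℂ) • k 0) := by
    have e0 : (mu1 (k 0) : ℂ) • k 0 = ((mu1 (k 0) * (ev a 0).re : ℝ) : ℂ) • one1 8 := by
      rw [hk, Ends.path_zero, smul_smul]
      push_cast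
      rw [ev_real ha1]
    have h1 := hadw 0 ⟨le_rfl, zero_le_one⟩
    have h2 := hV0 0
    rw [e0] at h1 h2 ⊢
    exact goodW_const h1 h2
  have hgood := path_theorem (w := fun s => (mu1 (k s) : ℂ) • k s) zero_le_one
    (continuous_mu1_path hW).continuousOn hadw (fun s _ => hV0 s) hbase
  have hk1 : k 1 = a := Ends.path_one a
  obtain ⟨u, v, c', hadm, hg⟩ := hgood
  have hu0 : u ≠ 0 := by
    intro h0
    have := hadm.norm_u
    rw [h0, norm_zero] at this
    exact zero_ne_one this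
  obtain ⟨b, hb, hD⟩ := hDM 1 u hadm.hu hu0
  have hI := ineqI_of_good (hadw 1 ⟨zero_le_one, le_rfl⟩) hadm.toTri hg
  have hkap : ∀ z ∈ Lim.DD, Lim.kap f F ρ r z = r ^ 2 * (ev (k 1) z).re := by
    intro z hz
    rw [hk1, ha2 z (mem_ball_zero_iff.1 hz).le, Complex.ofReal_re]
    unfold Lim.kap
    ring
  refine ⟨mu1 (k 1) / r ^ 2, fun z => r⁻¹ * (b * (ev u z).re),
    (discMin_scale hD hr0).congr_weight hkap, ?_, ?_⟩
  case' refine_2 => exact fun z hz => gsq_ne_of_good (hadw 1 ⟨zero_le_one, le_rfl⟩) hadm.toTri hg hz (b := b) hr0 hb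
  have hμ1 := mu1_pos (hkW 1)
  refine ineqI_scale (u := rv u) (b := r⁻¹ * b) ?_ hI (by (clear * - hμ1 hr0; positivity)) (by (clear * - hr0 hb; positivity)) ?_ ?_
  · have := contDiffOn_ev 8 u
    have h3 : ContDiffOn ℝ 1 (ev u) (ball 0 1) :=
      (this.mono ball_subset_closedBall).of_le (by norm_num)
    exact Complex.reCLM.contDiff.comp_contDiffOn h3
  · intro z hz
    rw [hkap z hz]
    unfold rv
    rw [ev_smul, Complex.re_ofReal_mul]
    (clear * - hμ1 hr0; field_simp)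
  · intro z
    unfold rv
    ring

end Vale.Agent.P071.G
end
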