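import Vale.Agent.P071.Bdl.B5

set_option linter.all false

/-!
# The Hartman-Wintner dichotomy for `|Δv| ≤ K |v|`
-/

open MeasureTheory Metric Filter Topology Real
open scoped ContDiff ENNReal

namespace Vale.Agent.P071.Lim

namespace HWx

theorem cauchy_bd {E : ℂ → ℂ} {M r : ℝ} (hr : 0 < r) (hE : Measurable E) (hM : ∀ z, ‖E z‖ ≤ M)
    (hs : ∀ z, r < ‖z‖ → E z = 0) {ζ : ℂ} (hζ : ‖ζ‖ ≤ r) :
    Integrable (fun z => E z / (z - ζ)) ∧
      ‖∫ z, E z / (z - ζ)‖ ≤ M * ∫ y in ball (0 : ℂ) (3 * r), ‖y‖⁻¹ := by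
  have hM0 : 0 ≤ M := (norm_nonneg _).trans (hM 0)
  set G : ℂ → ℝ := (ball (0 : ℂ) (3 * r)).indicator (fun y => M * ‖y‖⁻¹) with hG
  have hGi0 : IntegrableOn (fun y : ℂ => M * ‖y‖⁻¹) (ball (0 : ℂ) (3 * r)) :=
    (integrableOn_inv_norm (3 * r)).const_mul M
  have hGi : Integrable G := hGi0.integrable_indicator measurableSet_ball
  have hGs : Integrable (fun z => G (z - ζ)) := hGi.comp_sub_right ζ
  have hb : ∀ z, ‖E z / (z - ζ)‖ ≤ G (z - ζ) := by
    intro z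
    by_cases hz : ‖z‖ ≤ r
    · have h1 : z - ζ ∈ ball (0 : ℂ) (3 * r) := by
        rw [mem_ball_zero_iff]
        have := norm_sub_le z ζ
        linarith
      rw [hG, Set.indicator_of_mem h1, norm_div, div_eq_mul_inv]
      exact mul_le_mul_of_nonneg_right (hM z) (by positivity)
    · push Not at hz
      rw [hs z hz, zero_div, norm_zero]
      exact Set.indicator_nonneg (fun y _ => by positivity) _
  refine ⟨hGs.mono' ?_ (Eventually.of_forall hb), ?_⟩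
  · exact (hE.div (measurable_id.sub_const ζ)).aestronglyMeasurable
  · refine (norm_integral_le_of_norm_le hGs (Eventually.of_forall hb)).trans (le_of_eq ?_)
    rw [integral_sub_right_eq_self G ζ, hG, integral_indicator measurableSet_ball,
      integral_const_mul]

theorem pompeiu_at {ψ : ℂ → ℂ} (h : ContDiff ℝ 1 ψ) (hs : HasCompactSupport ψ) (ζ : ℂ) :
    ∫ z, P136.SF.db ψ z / (z - ζ) = -(2 * π) * ψ ζ := by
  have h1 : ContDiff ℝ 1 (fun y => ψ (y + ζ)) := h.comp (contDiff_id.add contDiff_const)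
  have h2 : HasCompactSupport (fun y => ψ (y + ζ)) := hs.comp_homeomorph (Homeomorph.addRight ζ)
  have h3 := P136.SF.pompeiu h1 h2
  have h4 : ∀ w, P136.SF.db (fun y => ψ (y + ζ)) w = P136.SF.db ψ (w + ζ) := by
    intro w
    unfold P136.SF.db
    rw [fderiv_comp_add_right]
  simp only [h4, zero_add] at h3
  rw [← h3, ← integral_add_right_eq_self (fun z => P136.SF.db ψ z / (z - ζ)) ζ]
  congr 1
  funext w
  rw [add_sub_cancel_right, div_eq_mul_inv, mul_comm]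

theorem val_bd {v : ℂ → ℝ} {ρ C : ℝ} {m : ℕ} (hv : ContDiffOn ℝ 2 v (ball 0 ρ)) (h0 : v 0 = 0)
    (hC : ∀ z ∈ ball (0 : ℂ) ρ, ‖cgr v z‖ ≤ C * ‖z‖ ^ m) (hC0 : 0 ≤ C) {z : ℂ}
    (hz : z ∈ ball (0 : ℂ) ρ) : |v z| ≤ 2 * C * ‖z‖ ^ (m + 1) := by
  have hzρ : ‖z‖ < ρ := mem_ball_zero_iff.1 hz
  have hsub : closedBall (0 : ℂ) ‖z‖ ⊆ ball 0 ρ := closedBall_subset_ball hzρ
  have h1 := (convex_closedBall (0 : ℂ) ‖z‖).norm_image_sub_le_of_norm_fderiv_le (𝕜 := ℝ)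
    (f := v) (C := 2 * (C * ‖z‖ ^ m)) (x := 0) (y := z)
    (fun y hy => ((hv.differentiableOn (by norm_num)).differentiableAt
      (isOpen_ball.mem_nhds (hsub hy))))
    (fun y hy => by
      have h2 := CompA.norm_fderiv_le_gsq v y
      rw [← norm_cgr] at h2
      refine h2.trans (mul_le_mul_of_nonneg_left ?_ (by norm_num))
      refine (hC y (hsub hy)).trans (mul_le_mul_of_nonneg_left ?_ hC0)
      exact pow_le_pow_left₀ (norm_nonneg _) (mem_closedBall_zero_iff.1 hy) m)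
    (mem_closedBall_self (norm_nonneg _)) (mem_closedBall_zero_iff.2 le_rfl)
  rw [h0, sub_zero, sub_zero, Real.norm_eq_abs] at h1
  calc |v z| ≤ 2 * (C * ‖z‖ ^ m) * ‖z‖ := h1
    _ = 2 * C * ‖z‖ ^ (m + 1) := by ring

theorem hw0 {v : ℂ → ℝ} {R K : ℝ} (hR : 0 < R) (hv : ContDiffOn ℝ 2 v (ball 0 R))
    (hK : ∀ z ∈ ball (0 : ℂ) R, |lap v z| ≤ K * |v z|) (h0 : v 0 = 0) :
    (∀ᶠ z in 𝓝 (0 : ℂ), v z = 0) ∨ ∃ (m : ℕ) (a : ℂ) (C ρ : ℝ), a ≠ 0 ∧ 0 < ρ ∧ ρ < R ∧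
      ∀ z ∈ ball (0 : ℂ) ρ, ‖cgr v z - a * z ^ m‖ ≤ C * ‖z‖ ^ (m + 1) := by
  set J : ℝ := ∫ y in ball (0 : ℂ) (3 * (R / 2)), ‖y‖⁻¹ with hJ
  have hJ0 : 0 ≤ J := integral_nonneg fun z => by positivity
  set K' : ℝ := max K 0 with hK'
  have hK'0 : 0 ≤ K' := le_max_right _ _
  set ρ : ℝ := min (R / 4) (1 / ((K' + 1) * (J + 1))) with hρdef
  have hρ : 0 < ρ := lt_min (by linarith) (by positivity)
  have hρR : ρ ≤ R / 4 := min_le_left _ _
  have hρK : K' * ρ * J ≤ 1 := by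
    have h1 : ρ * ((K' + 1) * (J + 1)) ≤ 1 := by
      have := min_le_right (R / 4) (1 / ((K' + 1) * (J + 1)))
      rw [← hρdef, le_div_iff₀ (by positivity)] at this
      exact this
    nlinarith only [h1, hρ, hJ0, hK'0, mul_nonneg hρ.le hJ0, mul_nonneg hρ.le hK'0]
  set b : ContDiffBump (0 : ℂ) := ⟨ρ, 2 * ρ, hρ, by linarith⟩ with hb
  have hbc : ContDiff ℝ 1 b := b.contDiff
  set S : Set ℂ := ball 0 R with hS
  have hSo : IsOpen S := isOpen_ball
  have hts : tsupport b ⊆ closedBall 0 (R / 2) := by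
    rw [b.tsupport_eq]
    exact closedBall_subset_closedBall (by simp only [hb]; linarith)
  have htS : tsupport b ⊆ S := hts.trans (closedBall_subset_ball (by linarith))
  set ψ : ℂ → ℂ := fun y => (b y : ℂ) * cgr v y with hψ
  have hG := cgr_contDiffOn hSo hv
  have hbC : ContDiff ℝ 1 (fun y => ((b y : ℝ) : ℂ)) := Complex.ofRealCLM.contDiff.comp hbc
  have hψ0 : ∀ z, z ∉ tsupport b → ψ =ᶠ[𝓝 z] fun _ => 0 := by
    intro z hz
    filter_upwards [notMem_tsupport_iff_eventuallyEq.1 hz] with w hw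
    simp [hψ, hw]
  have hψ1 : ContDiff ℝ 1 ψ := by
    rw [contDiff_iff_contDiffAt]
    intro z
    by_cases hz : z ∈ S
    · exact hbC.contDiffAt.mul (hG.contDiffAt (hSo.mem_nhds hz))
    · exact contDiffAt_const.congr_of_eventuallyEq (hψ0 z fun h => hz (htS h))
  have hψs : HasCompactSupport ψ := by
    have : HasCompactSupport (fun y => ((b y : ℝ) : ℂ)) :=
      b.hasCompactSupport.comp_left (g := fun t : ℝ => (t : ℂ)) (by simp)
    exact this.mul_right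
  set D : ℂ → ℂ := P136.SF.db ψ with hD
  have hDc : Continuous D := by
    have h1 := hψ1.continuous_fderiv one_ne_zero
    exact (h1.clm_apply continuous_const).add
      (continuous_const.mul (h1.clm_apply continuous_const))
  have hDs : ∀ z, R / 2 < ‖z‖ → D z = 0 := by
    intro z hz
    have h1 : z ∉ tsupport b := fun h => by
      have := mem_closedBall_zero_iff.1 (hts h)
      linarith
    simp only [hD]
    unfold P136.SF.db
    rw [(hψ0 z h1).fderiv_eq]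
    simp
  obtain ⟨N, hN⟩ : ∃ N : ℝ, ∀ z, ‖D z‖ ≤ N := by
    obtain ⟨N, hN⟩ := (isCompact_closedBall (0 : ℂ) (R / 2)).exists_bound_of_continuousOn
      hDc.continuousOn
    refine ⟨max N 0, fun z => ?_⟩
    by_cases hz : ‖z‖ ≤ R / 2
    · exact (hN z (mem_closedBall_zero_iff.2 hz)).trans (le_max_left _ _)
    · push Not at hz
      rw [hDs z hz, norm_zero]
      exact le_max_right _ _
  have hN0 : 0 ≤ N := (norm_nonneg _).trans (hN 0)
  have hb1 : ∀ y ∈ ball (0 : ℂ) ρ, b y = 1 := fun y hy =>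
    b.one_of_mem_closedBall (ball_subset_closedBall hy)
  have hψv : ∀ y ∈ ball (0 : ℂ) ρ, ψ y = cgr v y := fun y hy => by
    simp only [hψ, hb1 y hy, Complex.ofReal_one, one_mul]
  have hsub : ball (0 : ℂ) ρ ⊆ S := ball_subset_ball (by linarith)
  have hDv : ∀ y ∈ ball (0 : ℂ) ρ, ‖D y‖ ≤ K' * |v y| := by
    intro y hy
    have h1 : ψ =ᶠ[𝓝 y] cgr v := by
      filter_upwards [isOpen_ball.mem_nhds hy] with w hw using hψv w hw
    have h2 : D y = (lap v y : ℂ) := by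
      rw [← db_cgr hSo hv (hsub hy)]
      simp only [hD]
      unfold P136.SF.db
      rw [h1.fderiv_eq]
    rw [h2, Complex.norm_real, Real.norm_eq_abs]
    exact (hK y (hsub hy)).trans (mul_le_mul_of_nonneg_right (le_max_left _ _) (abs_nonneg _))
  have hvρ : ContDiffOn ℝ 2 v (ball 0 ρ) := hv.mono hsub
  have hcz : ∀ z : ℂ, ‖z‖ < ρ → ‖z‖ ≤ R / 2 := fun z hz => by linarith
  have hπ := Real.pi_pos
  -- the bound for `D / z ^ (m+1)`
  have hEb : ∀ (m : ℕ) (C : ℝ), 0 ≤ C → (∀ z ∈ ball (0 : ℂ) ρ, ‖cgr v z‖ ≤ C * ‖z‖ ^ m) →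
      ∀ z, ‖D z / z ^ (m + 1)‖ ≤ 2 * K' * C + N / ρ ^ (m + 1) := by
    intro m C hC0 hC z
    rw [norm_div, norm_pow]
    by_cases hz : ‖z‖ < ρ
    · have hz' : z ∈ ball (0 : ℂ) ρ := mem_ball_zero_iff.2 hz
      have h1 := (hDv z hz').trans (mul_le_mul_of_nonneg_left (val_bd hvρ h0 hC hC0 hz') hK'0)
      have h2 : 0 ≤ N / ρ ^ (m + 1) := by positivity
      rcases eq_or_ne z 0 with h3 | h3
      · subst h3
        simp only [norm_zero, ne_eq, Nat.add_eq_zero_iff, one_ne_zero, and_false, not_false_eq_true,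
          zero_pow, div_zero]
        positivity
      · have h4 : 0 < ‖z‖ ^ (m + 1) := pow_pos (norm_pos_iff.2 h3) _
        rw [div_le_iff₀ h4]
        nlinarith only [h1, h2, h4, mul_nonneg h2 h4.le]
    · push Not at hz
      have h1 : ρ ^ (m + 1) ≤ ‖z‖ ^ (m + 1) := pow_le_pow_left₀ hρ.le hz _
      have h2 : ‖D z‖ / ‖z‖ ^ (m + 1) ≤ N / ρ ^ (m + 1) :=
        div_le_div₀ hN0 (hN z) (by positivity) h1
      have h3 : 0 ≤ 2 * K' * C := by positivity
      linarith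
  have hEb' : ∀ (m : ℕ) (C : ℝ), 0 ≤ C → (∀ z ∈ ball (0 : ℂ) ρ, ‖cgr v z‖ ≤ C * ‖z‖ ^ m) →
      ∀ z, ‖D z / z ^ m‖ ≤ 2 * K' * C * ρ + N / ρ ^ m := by
    intro m C hC0 hC z
    rw [norm_div, norm_pow]
    by_cases hz : ‖z‖ < ρ
    · have hz' : z ∈ ball (0 : ℂ) ρ := mem_ball_zero_iff.2 hz
      have h1 := (hDv z hz').trans (mul_le_mul_of_nonneg_left (val_bd hvρ h0 hC hC0 hz') hK'0)
      have h2 : 0 ≤ N / ρ ^ m := by positivity
      rcases eq_or_ne (‖z‖ ^ m) 0 with h3 | h3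
      · rw [h3, div_zero]
        positivity
      · have h4 : 0 < ‖z‖ ^ m := lt_of_le_of_ne (by positivity) (Ne.symm h3)
        rw [div_le_iff₀ h4]
        have h5 : K' * (2 * C * ‖z‖ ^ (m + 1)) ≤ 2 * K' * C * ρ * ‖z‖ ^ m := by
          have h6 : 0 ≤ 2 * K' * C * ‖z‖ ^ m := by positivity
          calc K' * (2 * C * ‖z‖ ^ (m + 1)) = (2 * K' * C * ‖z‖ ^ m) * ‖z‖ := by ring
            _ ≤ (2 * K' * C * ‖z‖ ^ m) * ρ := mul_le_mul_of_nonneg_left hz.le h6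
            _ = _ := by ring
        nlinarith only [h1, h5, mul_nonneg h2 h4.le]
    · push Not at hz
      have h1 : ρ ^ m ≤ ‖z‖ ^ m := pow_le_pow_left₀ hρ.le hz _
      have h2 : ‖D z‖ / ‖z‖ ^ m ≤ N / ρ ^ m := div_le_div₀ hN0 (hN z) (by positivity) h1
      have h3 : 0 ≤ 2 * K' * C * ρ := by positivity
      linarith
  have hEm : ∀ m : ℕ, Measurable fun z => D z / z ^ m := fun m =>
    hDc.measurable.div (measurable_id.pow_const m)
  have hEs : ∀ (m : ℕ) (z : ℂ), R / 2 < ‖z‖ → D z / z ^ m = 0 := fun m z hz => by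
    rw [hDs z hz, zero_div]
  by_cases hmain : ∀ m : ℕ, (∃ C : ℝ, 0 ≤ C ∧ ∀ z ∈ ball (0 : ℂ) ρ, ‖cgr v z‖ ≤ C * ‖z‖ ^ m) ∧
      ∀ ζ : ℂ, ‖ζ‖ ≤ R / 2 → -(2 * π) * ψ ζ = ζ ^ m * ∫ z, D z / z ^ m / (z - ζ)
  · -- infinite order: `v = 0` near `0`
    left
    have key : ∀ (m : ℕ) (z : ℂ), z ∈ ball (0 : ℂ) ρ → ‖cgr v z‖ ≤ 2 * (N * J) * (‖z‖ / ρ) ^ m := by
      intro m
      obtain ⟨⟨C, hC0, hC⟩, hF⟩ := hmain m
      have step : ∀ C : ℝ, 0 ≤ C → (∀ z ∈ ball (0 : ℂ) ρ, ‖cgr v z‖ ≤ C * ‖z‖ ^ m) →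
          ∀ z ∈ ball (0 : ℂ) ρ, ‖cgr v z‖ ≤ (C / 2 + N * J / ρ ^ m) * ‖z‖ ^ m := by
        intro C hC0 hC z hz
        have hzr := hcz z (mem_ball_zero_iff.1 hz)
        have h1 := (cauchy_bd (by linarith : 0 < R / 2) (hEm m) (hEb' m C hC0 hC) (hEs m) hzr).2
        rw [← hJ] at h1
        have h2 := hF z hzr
        have h3 : 2 * π * ‖cgr v z‖ = ‖z‖ ^ m * ‖∫ y, D y / y ^ m / (y - z)‖ := by
          rw [← norm_pow, ← norm_mul, ← h2, hψv z hz, norm_mul, norm_neg, norm_mul,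
            Complex.norm_real, Real.norm_of_nonneg hπ.le]
          simp
        have h4 : 0 ≤ ‖z‖ ^ m := by positivity
        have h5 : 2 * π * ‖cgr v z‖ ≤ ‖z‖ ^ m * ((2 * K' * C * ρ + N / ρ ^ m) * J) := by
          rw [h3]; exact mul_le_mul_of_nonneg_left h1 h4
        have h6 : (2 * K' * C * ρ + N / ρ ^ m) * J ≤ 2 * C + N * J / ρ ^ m := by
          have h7 : K' * ρ * J * C ≤ 1 * C := mul_le_mul_of_nonneg_right hρK hC0
          have h8 : (2 * K' * C * ρ + N / ρ ^ m) * J = 2 * (K' * ρ * J * C) + N * J / ρ ^ m := by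
            ring
          rw [h8]; linarith
        have h9 : 0 ≤ N * J / ρ ^ m := by positivity
        have h10 : 4 * ‖cgr v z‖ ≤ ‖z‖ ^ m * (2 * C + N * J / ρ ^ m) := by
          have h11 : 4 * ‖cgr v z‖ ≤ 2 * π * ‖cgr v z‖ :=
            mul_le_mul_of_nonneg_right (by linarith [Real.pi_gt_three]) (norm_nonneg _)
          exact h11.trans (h5.trans (mul_le_mul_of_nonneg_left h6 h4))
        nlinarith only [h10, mul_nonneg h4 h9]
      have hj : ∀ j : ℕ, ∀ z ∈ ball (0 : ℂ) ρ,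
          ‖cgr v z‖ ≤ (C / 2 ^ j + 2 * (N * J / ρ ^ m)) * ‖z‖ ^ m := by
        intro j
        have h9 : 0 ≤ N * J / ρ ^ m := by positivity
        induction j with
        | zero =>
          intro z hz
          refine (hC z hz).trans (mul_le_mul_of_nonneg_right ?_ (by positivity))
          simp only [pow_zero, div_one]
          linarith
        | succ j ih =>
          intro z hz
          have := step (C / 2 ^ j + 2 * (N * J / ρ ^ m)) (by positivity) ih z hz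
          refine this.trans (le_of_eq ?_)
          rw [pow_succ]
          field_simp
          ring
      intro z hz
      have hlim : Tendsto (fun j : ℕ => (C / 2 ^ j + 2 * (N * J / ρ ^ m)) * ‖z‖ ^ m) atTop
          (𝓝 ((C * 0 + 2 * (N * J / ρ ^ m)) * ‖z‖ ^ m)) := by
        have h1 : Tendsto (fun j : ℕ => ((2 : ℝ)⁻¹) ^ j) atTop (𝓝 0) :=
          tendsto_pow_atTop_nhds_zero_of_lt_one (by norm_num) (by norm_num)
        have h2 : Tendsto (fun j : ℕ => C * ((2 : ℝ)⁻¹) ^ j) atTop (𝓝 (C * 0)) := h1.const_mul C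
        have h3 : (fun j : ℕ => (C / 2 ^ j + 2 * (N * J / ρ ^ m)) * ‖z‖ ^ m) =
            fun j : ℕ => (C * ((2 : ℝ)⁻¹) ^ j + 2 * (N * J / ρ ^ m)) * ‖z‖ ^ m := by
          funext j
          rw [inv_pow, div_eq_mul_inv]
        rw [h3]
        exact (h2.add_const _).mul_const _
      have h4 := ge_of_tendsto' hlim fun j => hj j z hz
      refine h4.trans (le_of_eq ?_)
      rw [div_pow]
      ring
    have hzero : ∀ z ∈ ball (0 : ℂ) ρ, ‖cgr v z‖ ≤ 0 * ‖z‖ ^ 0 := by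
      intro z hz
      have h1 : ‖z‖ / ρ < 1 := by
        rw [div_lt_one hρ]; exact mem_ball_zero_iff.1 hz
      have h2 : Tendsto (fun m : ℕ => 2 * (N * J) * (‖z‖ / ρ) ^ m) atTop
          (𝓝 (2 * (N * J) * 0)) :=
        (tendsto_pow_atTop_nhds_zero_of_lt_one (by positivity) h1).const_mul _
      have h3 := ge_of_tendsto' h2 fun m => key m z hz
      simpa using h3
    filter_upwards [ball_mem_nhds (0 : ℂ) hρ] with z hz
    have h1 := val_bd hvρ h0 hzero le_rfl hz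
    simp only [mul_zero, zero_mul] at h1
    exact abs_nonpos_iff.1 h1
  · -- finite order
    right
    push Not at hmain
    classical
    -- first failure
    have hex : ∃ m : ℕ, ¬ ((∃ C : ℝ, 0 ≤ C ∧ ∀ z ∈ ball (0 : ℂ) ρ, ‖cgr v z‖ ≤ C * ‖z‖ ^ m) ∧
      ∀ ζ : ℂ, ‖ζ‖ ≤ R / 2 → -(2 * π) * ψ ζ = ζ ^ m * ∫ z, D z / z ^ m / (z - ζ)) := by
      obtain ⟨m, hm⟩ := hmain
      refine ⟨m, fun h => ?_⟩
      obtain ⟨ζ, h1, h2⟩ := hm h.1
      exact h2 (h.2 ζ h1)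
    obtain ⟨m, hmf, hmin⟩ : ∃ m : ℕ, ¬ ((∃ C : ℝ, 0 ≤ C ∧
        ∀ z ∈ ball (0 : ℂ) ρ, ‖cgr v z‖ ≤ C * ‖z‖ ^ m) ∧
        ∀ ζ : ℂ, ‖ζ‖ ≤ R / 2 → -(2 * π) * ψ ζ = ζ ^ m * ∫ z, D z / z ^ m / (z - ζ)) ∧
        ∀ k < m, ((∃ C : ℝ, 0 ≤ C ∧ ∀ z ∈ ball (0 : ℂ) ρ, ‖cgr v z‖ ≤ C * ‖z‖ ^ k) ∧
        ∀ ζ : ℂ, ‖ζ‖ ≤ R / 2 → -(2 * π) * ψ ζ = ζ ^ k * ∫ z, D z / z ^ k / (z - ζ)) :=
      ⟨Nat.find hex, Nat.find_spec hex, fun k hk => not_not.1 (Nat.find_min hex hk)⟩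
    rcases Nat.eq_zero_or_pos m with hm0 | hm0
    · exfalso
      subst hm0
      apply hmf
      constructor
      · obtain ⟨C, hC⟩ := (isCompact_closedBall (0 : ℂ) ρ).exists_bound_of_continuousOn
          (hG.continuousOn.mono (closedBall_subset_ball (by linarith : ρ < R)))
        refine ⟨max C 0, le_max_right _ _, fun z hz => ?_⟩
        rw [pow_zero, mul_one]
        exact (hC z (ball_subset_closedBall hz)).trans (le_max_left _ _)
      · intro ζ hζ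
        rw [pow_zero, one_mul, ← pompeiu_at hψ1 hψs ζ]
        simp only [pow_zero, div_one, hD]
    obtain ⟨k, rfl⟩ : ∃ k, m = k + 1 := ⟨m - 1, by omega⟩
    obtain ⟨⟨C, hC0, hC⟩, hF⟩ := hmin k (Nat.lt_succ_self k)
    set M : ℝ := 2 * K' * C + N / ρ ^ (k + 1) with hMdef
    have hM0 : 0 ≤ M := by positivity
    have hr2 : 0 < R / 2 := by linarith
    have hint : ∀ ζ : ℂ, ‖ζ‖ ≤ R / 2 → Integrable (fun z => D z / z ^ (k + 1) / (z - ζ)) ∧
        ‖∫ z, D z / z ^ (k + 1) / (z - ζ)‖ ≤ M * J := fun ζ hζ =>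
      cauchy_bd hr2 (hEm (k + 1)) (hEb k C hC0 hC) (hEs (k + 1)) hζ
    have hE1 : Integrable fun z => D z / z ^ (k + 1) := by
      have h1 : IntegrableOn (fun z => D z / z ^ (k + 1)) (closedBall 0 (R / 2)) := by
        refine Integrable.mono' (g := fun _ => M) ?_ (hEm (k + 1)).aestronglyMeasurable
          (Eventually.of_forall (hEb k C hC0 hC))
        exact integrableOn_const (isCompact_closedBall _ _).measure_lt_top.ne
      refine (integrableOn_iff_integrable_of_support_subset ?_).1 h1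
      intro z hz
      by_contra hcon
      exact hz (hEs (k + 1) z (by rw [mem_closedBall_zero_iff] at hcon; linarith))
    set c : ℂ := ∫ z, D z / z ^ (k + 1) with hc
    have hsplit : ∀ ζ : ℂ, ‖ζ‖ ≤ R / 2 → ∫ z, D z / z ^ k / (z - ζ) =
        c + ζ * ∫ z, D z / z ^ (k + 1) / (z - ζ) := by
      intro ζ hζ
      rw [hc, ← integral_const_mul, ← integral_add hE1 ((hint ζ hζ).1.const_mul ζ)]
      have hae : ∀ᵐ z ∂(volume : Measure ℂ), z ≠ ζ ∧ z ≠ 0 := by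
        have h1 : ∀ᵐ z ∂(volume : Measure ℂ), z ≠ ζ := by
          simp [ae_iff]
        have h2 : ∀ᵐ z ∂(volume : Measure ℂ), z ≠ 0 := by
          simp [ae_iff]
        exact h1.and h2
      refine integral_congr_ae (hae.mono fun z hz => ?_)
      have h1 : z - ζ ≠ 0 := sub_ne_zero.2 hz.1
      have h2 : z ≠ 0 := hz.2
      simp only
      field_simp
      ring
    have hψe : ∀ ζ : ℂ, ‖ζ‖ ≤ R / 2 → -(2 * π) * ψ ζ =
        ζ ^ k * c + ζ ^ (k + 1) * ∫ z, D z / z ^ (k + 1) / (z - ζ) := by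
      intro ζ hζ
      rw [hF ζ hζ, hsplit ζ hζ]
      ring
    have hπc : ((2 * π : ℝ) : ℂ) ≠ 0 := by exact_mod_cast (by positivity : (2 * π : ℝ) ≠ 0)
    have hest : ∀ z ∈ ball (0 : ℂ) ρ,
        ‖cgr v z - (-c / (2 * π : ℝ)) * z ^ k‖ ≤ M * J * ‖z‖ ^ (k + 1) := by
      intro z hz
      have hzr := hcz z (mem_ball_zero_iff.1 hz)
      have h1 := hψe z hzr
      have h2 := (hint z hzr).2
      rw [hψv z hz] at h1
      have h3 : cgr v z - (-c / (2 * π : ℝ)) * z ^ k =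
          -(z ^ (k + 1) * ∫ y, D y / y ^ (k + 1) / (y - z)) / (2 * π : ℝ) := by
        rw [eq_div_iff hπc, sub_mul, mul_assoc, mul_comm (z ^ k), ← mul_assoc,
          div_mul_cancel₀ _ hπc]
        have h4 : cgr v z * ((2 * π : ℝ) : ℂ) = -(-(2 * π) * cgr v z) := by push_cast; ring
        rw [h4, h1]
        ring
      rw [h3, norm_div, norm_neg, norm_mul, norm_pow, Complex.norm_real,
        Real.norm_of_nonneg (by positivity), div_le_iff₀ (by positivity)]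
      have h5 : 0 ≤ ‖z‖ ^ (k + 1) := by positivity
      have h6 : 0 ≤ M * J * ‖z‖ ^ (k + 1) := by positivity
      have h7 : ‖z‖ ^ (k + 1) * ‖∫ y, D y / y ^ (k + 1) / (y - z)‖ ≤
          ‖z‖ ^ (k + 1) * (M * J) := mul_le_mul_of_nonneg_left h2 h5
      nlinarith only [h6, h7, Real.pi_gt_three]
    by_cases hc0 : c = 0
    · exfalso
      apply hmf
      constructor
      · refine ⟨M * J, by positivity, fun z hz => ?_⟩
        have := hest z hz
        rw [hc0] at this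
        simpa using this
      · intro ζ hζ
        rw [hψe ζ hζ, hc0, mul_zero, zero_add]
    · refine ⟨k, -c / (2 * π : ℝ), M * J, ρ, ?_, hρ, by linarith, hest⟩
      exact div_ne_zero (neg_ne_zero.2 hc0) hπc

end HWx

theorem hartman_wintner {v : ℂ → ℝ} {z₀ : ℂ} {R K : ℝ} (hR : 0 < R)
    (hv : ContDiffOn ℝ 2 v (ball z₀ R)) (hK : ∀ z ∈ ball z₀ R, |lap v z| ≤ K * |v z|)
    (h0 : v z₀ = 0) : (∀ᶠ z in 𝓝 z₀, v z = 0) ∨ ∃ (m : ℕ) (a : ℂ) (C ρ : ℝ), a ≠ 0 ∧ 0 < ρ ∧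
      ρ < R ∧ ∀ z ∈ ball z₀ ρ, ‖cgr v z - a * (z - z₀) ^ m‖ ≤ C * ‖z - z₀‖ ^ (m + 1) := by
  set u : ℂ → ℝ := fun y => v (z₀ + y) with hu
  have hu2 : ContDiffOn ℝ 2 u (ball 0 R) := contDiffOn_shift hv
  have hmem : ∀ y ∈ ball (0 : ℂ) R, z₀ + y ∈ ball z₀ R := fun y hy => by
    rw [mem_ball_iff_norm, add_sub_cancel_left]
    exact mem_ball_zero_iff.1 hy
  have hcs : ∀ y, cgr u y = cgr v (z₀ + y) := fun y => by
    unfold cgr
    rw [hu, px_shift, py_shift]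
  rcases HWx.hw0 hR hu2 (K := K) (fun y hy => by
    have h1 : lap u y = lap v (z₀ + y) := by rw [hu, lap_shift]
    rw [h1]
    exact hK _ (hmem y hy)) (by simp [hu, h0]) with h | ⟨m, a, C, ρ, ha, hρ, hρR, hest⟩
  · left
    have h1 : Tendsto (fun z : ℂ => z - z₀) (𝓝 z₀) (𝓝 0) := by
      have : Continuous fun z : ℂ => z - z₀ := by fun_prop
      simpa using this.tendsto z₀
    filter_upwards [h1.eventually h] with z hz
    simpa [hu] using hz
  · right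
    refine ⟨m, a, C, ρ, ha, hρ, hρR, fun z hz => ?_⟩
    have h1 := hest (z - z₀) (by rw [mem_ball_zero_iff]; exact mem_ball_iff_norm.1 hz)
    rw [hcs, add_sub_cancel] at h1
    exact h1

end Vale.Agent.P071.Lim
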