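import Vale.Agent.P071.H969.Main

set_option linter.all false

/-!
# The weighted inequality `∫ η² u²/|∇u|² ≤ (16/μ₁²) ∫ |∇η|²`
-/

open MeasureTheory Metric Filter Topology Real
open scoped ContDiff ENNReal

namespace Vale.Agent.P071.NC

open Lim

/-- The inequality (I) in the disc, for every target. -/
theorem target_ineqI {f F : ℂ → ℂ} (hf : Conf f F)
    (hT : TailU F) (hD : DiscThmN f F) {μ : ℝ} {U : ℂ → ℝ} (hU : Target F μ U)
    {η : ℂ → ℝ} (h1 : ContDiff ℝ 1 η) (h2 : HasCompactSupport η) (h3 : tsupport η ⊆ DD) :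
    ∫⁻ z in DD, ENNReal.ofReal (η z ^ 2 * (‖F z‖ ^ 2) ^ 2 * U z ^ 2 / gsq U z) ≤
      ENNReal.ofReal (16 / μ ^ 2 * ∫ z in DD, gsq η z) := by
  obtain ⟨-, -, w, c, hc0, hw, hall, hI, -⟩ := target_limit hf hT hD hU
  refine le_trans (le_of_eq ?_) (hI η h1 h2 h3)
  refine setLIntegral_congr_fun measurableSet_ball fun z hz => ?_
  have hwU : w =ᶠ[𝓝 z] fun y => c * U y := by
    filter_upwards [isOpen_ball.mem_nhds hz] with x hx
    have := hall x hx
    linarith
  have hUd : DifferentiableAt ℝ U z :=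
    (hU.smooth.differentiableOn (by norm_num)).differentiableAt (isOpen_ball.mem_nhds hz)
  have hfd : fderiv ℝ w z = c • fderiv ℝ U z := by
    rw [hwU.fderiv_eq, fderiv_const_mul hUd]
  have hg : gsq w z = c ^ 2 * gsq U z := by
    unfold gsq px py
    rw [hfd]
    simp only [smul_apply, smul_eq_mul]
    ring
  have hgU : 0 < gsq U z := lt_of_le_of_ne (gsq_nonneg_bd400 U z)
    (Ne.symm (target_no_crit_of hf hT hD hU hz))
  have hc2 : 0 < c ^ 2 := by positivity
  have hwz : w z = c * U z := by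
    have := hall z hz
    linarith
  show ENNReal.ofReal (η z ^ 2 * (‖F z‖ ^ 2) ^ 2 * U z ^ 2 / gsq U z) =
    ENNReal.ofReal (η z ^ 2 * (‖F z‖ ^ 2) ^ 2 * w z ^ 2) / ENNReal.ofReal (gsq w z)
  rw [hg, hwz, ← ENNReal.ofReal_div_of_pos (mul_pos hc2 hgU)]
  congr 1
  field_simp

/-- **The weighted inequality** for first Neumann eigenfunctions. -/
theorem weighted {Ω : Set ℂ} (ho : IsOpen Ω) (hb : Bornology.IsBounded Ω)
    (hs : IsSimplyConnected Ω) (hT : Tight Ω) {u : ℂ → ℝ} (hu : InV Ω u)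
    (hc : ContinuousOn u Ω) (h0 : ∃ z ∈ Ω, u z ≠ 0) {η : ℂ → ℝ} (h1 : ContDiff ℝ 1 η)
    (h2 : HasCompactSupport η) (h3 : tsupport η ⊆ Ω) :
    IntegrableOn (fun z => η z ^ 2 * u z ^ 2 / (px u z ^ 2 + py u z ^ 2)) Ω ∧
    ∫ z in Ω, η z ^ 2 * u z ^ 2 / (px u z ^ 2 + py u z ^ 2) ≤
      16 / muOne Ω ^ 2 * ∫ z in Ω, (px η z ^ 2 + py η z ^ 2) := by
  obtain ⟨hsm, -⟩ := smooth_of_inV ho hu hc
  have hcrit := no_crit ho hb hs hT hu hc h0
  obtain ⟨f, hf, hfΩ, hTU, hμ⟩ := setup ho hb hs hT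
  obtain ⟨c, hc0, hU⟩ := target_of_inV hf hfΩ hμ hu hc h0
  set U : ℂ → ℝ := fun z => c * u (f z) with hUdef
  set F : ℂ → ℂ := deriv f with hF
  have hsm1 : ContDiffOn ℝ 1 u Ω := hsm.of_le (by norm_num)
  have hmaps : ∀ z ∈ DD, f z ∈ Ω := fun z hz => hfΩ ▸ Set.mem_image_of_mem f hz
  -- positivity of the gradient
  have hgpos : ∀ x ∈ Ω, 0 < px u x ^ 2 + py u x ^ 2 := by
    intro x hx
    refine lt_of_le_of_ne (by positivity) fun h => hcrit x hx ?_
    have e1 : px u x = 0 := by nlinarith only [h, sq_nonneg (px u x), sq_nonneg (py u x)]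
    have e2 : py u x = 0 := by nlinarith only [h, sq_nonneg (px u x), sq_nonneg (py u x)]
    ext w
    have e : fderiv ℝ u x w = w.re * fderiv ℝ u x 1 + w.im * fderiv ℝ u x Complex.I := by
      conv_lhs => rw [← Complex.re_add_im w]
      rw [map_add]
      congr 1
      · rw [show (w.re : ℂ) = w.re • (1 : ℂ) by simp, map_smul, smul_eq_mul]
      · rw [show (w.im : ℂ) * Complex.I = w.im • Complex.I by simp, map_smul, smul_eq_mul]
    rw [e]
    unfold px at e1
    unfold py at e2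
    rw [e1, e2]
    simp
  set G : ℂ → ℝ := fun z => η z ^ 2 * u z ^ 2 / (px u z ^ 2 + py u z ^ 2) with hGdef
  have hG0 : ∀ z, 0 ≤ G z := fun z => by simp only [hGdef]; positivity
  have hpxc : ContinuousOn (px u) Ω :=
    (hsm1.continuousOn_fderiv_of_isOpen ho le_rfl).clm_apply continuousOn_const
  have hpyc : ContinuousOn (py u) Ω :=
    (hsm1.continuousOn_fderiv_of_isOpen ho le_rfl).clm_apply continuousOn_const
  have hGc : ContinuousOn G Ω := by
    refine ((h1.continuous.continuousOn.pow 2).mul (hc.pow 2)).div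
      ((hpxc.pow 2).add (hpyc.pow 2)) fun z hz => (hgpos z hz).ne'
  have hGi : IntegrableOn G Ω := by
    have i1 : IntegrableOn G (tsupport η) :=
      (hGc.mono h3).integrableOn_compact h2
    have i2 : Integrable G := by
      refine (integrableOn_iff_integrable_of_support_subset ?_).1 i1
      intro z hz
      apply subset_tsupport η
      intro h
      exact hz (by simp [hGdef, h])
    exact i2.integrableOn
  refine ⟨hGi, ?_⟩
  -- the pulled back test function
  obtain ⟨g, -, hgf, hfg, hgd, hgs⟩ := exists_inverse hf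
  set θ : ℂ → ℝ := DD.indicator (fun z => η (f z)) with hθ
  have hK : IsCompact (g '' tsupport η) := by
    refine h2.isCompact.image_of_continuousOn ?_
    refine (hgs.continuousOn).mono ?_
    rw [hfΩ]; exact h3
  have hKD : g '' tsupport η ⊆ DD := by
    rintro _ ⟨x, hx, rfl⟩
    exact (hfg x (by rw [hfΩ]; exact h3 hx)).1
  have hsupp : Function.support θ ⊆ g '' tsupport η := by
    intro z hz
    have hzD : z ∈ DD := by
      by_contra h
      exact hz (by simp only [hθ]; exact Set.indicator_of_notMem h _)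
    have h4 : θ z = η (f z) := Set.indicator_of_mem hzD _
    refine ⟨f z, subset_tsupport η ?_, hgf z hzD⟩
    rw [Function.mem_support, ← h4]
    exact hz
  have hts : tsupport θ ⊆ g '' tsupport η := closure_minimal hsupp hK.isClosed
  have hθs : HasCompactSupport θ := hK.of_isClosed_subset isClosed_closure hts
  have hθD : tsupport θ ⊆ DD := hts.trans hKD
  have hfd : DifferentiableOn ℂ f DD := fun z hz =>
    (hf.deriv z hz).differentiableAt.differentiableWithinAt
  have hfs : ContDiffOn ℝ 1 f DD := (hfd.contDiffOn (n := 1) isOpen_ball).restrict_scalars ℝ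
  have hθe : ∀ z ∈ DD, θ =ᶠ[𝓝 z] fun y => η (f y) := fun z hz => by
    filter_upwards [isOpen_ball.mem_nhds hz] with y hy
    exact Set.indicator_of_mem hy _
  have hθ1 : ContDiff ℝ 1 θ := by
    rw [contDiff_iff_contDiffAt]
    intro z
    by_cases hz : z ∈ DD
    · have h4 : ContDiffAt ℝ 1 (fun y => η (f y)) z :=
        (h1.contDiffAt).comp z (hfs.contDiffAt (isOpen_ball.mem_nhds hz))
      exact h4.congr_of_eventuallyEq (hθe z hz)
    · have h4 : θ =ᶠ[𝓝 z] 0 := notMem_tsupport_iff_eventuallyEq.1 fun h => hz (hθD h)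
      exact contDiffAt_const.congr_of_eventuallyEq h4
  have hineq := target_ineqI hf hTU (_root_.Vale.Agent.P071.G.disc_thmN hf) hU hθ1 hθs hθD
  -- right hand side
  have hR : ∫ z in DD, gsq θ z = ∫ z in Ω, (px η z ^ 2 + py η z ^ 2) := by
    have e1 : ∀ z ∈ DD, gsq θ z = ‖F z‖ ^ 2 * gsq η (f z) := by
      intro z hz
      have e2 : gsq θ z = gsq (fun y => η (f y)) z := by
        unfold gsq px py
        rw [(hθe z hz).fderiv_eq]
      rw [e2, gsq_comp hf h1.contDiffOn hz]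
    rw [setIntegral_congr_fun measurableSet_ball e1, ← conf_integral hf (gsq η), hfΩ]
    rfl
  -- left hand side
  have hL : ∀ z ∈ DD, θ z ^ 2 * (‖F z‖ ^ 2) ^ 2 * U z ^ 2 / gsq U z = ‖F z‖ ^ 2 * G (f z) := by
    intro z hz
    have e1 : θ z = η (f z) := Set.indicator_of_mem hz _
    have hcu : ContDiffOn ℝ 1 (fun x => c * u x) (f '' DD) := by
      rw [hfΩ]; exact contDiffOn_const.mul hsm1
    have e2 : gsq U z = ‖F z‖ ^ 2 * (c ^ 2 * gsq u (f z)) := by
      have e3 : gsq U z = ‖F z‖ ^ 2 * gsq (fun x => c * u x) (f z) := gsq_comp hf hcu hz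
      rw [e3, tgt_gsq_smul]
    have h4 : 0 < ‖F z‖ := norm_pos_iff.2 (hf.ne_zero z hz)
    have h5 : 0 < gsq u (f z) := hgpos _ (hmaps z hz)
    rw [e1, e2]
    simp only [hGdef, hUdef]
    show η (f z) ^ 2 * (‖F z‖ ^ 2) ^ 2 * (c * u (f z)) ^ 2 / (‖F z‖ ^ 2 * (c ^ 2 * gsq u (f z))) =
      ‖F z‖ ^ 2 * (η (f z) ^ 2 * u (f z) ^ 2 / gsq u (f z))
    field_simp
  have hGi' : IntegrableOn (fun z => ‖F z‖ ^ 2 * G (f z)) DD :=
    (conf_integrable_iff hf G).1 (by rw [hfΩ]; exact hGi)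
  rw [setLIntegral_congr_fun measurableSet_ball (fun z hz => by
      show ENNReal.ofReal (θ z ^ 2 * (‖F z‖ ^ 2) ^ 2 * U z ^ 2 / gsq U z) =
        ENNReal.ofReal (‖F z‖ ^ 2 * G (f z))
      rw [hL z hz]),
    ← ofReal_integral_eq_lintegral_ofReal hGi' (Eventually.of_forall fun z => by
      have := hG0 (f z)
      show 0 ≤ ‖F z‖ ^ 2 * G (f z)
      positivity), ← conf_integral hf G, hfΩ, hR] at hineq
  have hnn : 0 ≤ 16 / muOne Ω ^ 2 * ∫ z in Ω, (px η z ^ 2 + py η z ^ 2) :=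
    mul_nonneg (by positivity) (integral_nonneg fun z => by positivity)
  exact (ENNReal.ofReal_le_ofReal_iff hnn).1 hineq

end Vale.Agent.P071.NC
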