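import Vale.Agent.P071.H969.Sel
import Vale.Agent.P071.H969.HW
import Vale.Agent.P071.H969.Deg

set_option linter.all false

/-!
# No critical point on the nodal line: unique continuation and the index argument
-/

open MeasureTheory Metric Filter Topology Real
open scoped ContDiff ENNReal

namespace Vale.Agent.P071.Lim

theorem cgr_eq_zero_iff (v : ℂ → ℝ) (z : ℂ) : cgr v z = 0 ↔ gsq v z = 0 := by
  rw [← norm_eq_zero, norm_cgr]
  constructor
  · intro h
    have h1 : 0 ≤ gsq v z := by unfold gsq; positivity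
    rwa [Real.sqrt_eq_zero h1] at h
  · intro h; rw [h, Real.sqrt_zero]

theorem cgr_of_eventually {v : ℂ → ℝ} {z : ℂ} (h : ∀ᶠ y in 𝓝 z, v y = 0) : cgr v z = 0 := by
  have h1 : v =ᶠ[𝓝 z] fun _ => 0 := h
  have h2 : fderiv ℝ v z = 0 := by rw [h1.fderiv_eq]; simp
  simp [cgr, px, py, h2]

/-- Unique continuation. -/
theorem uc_of {V κ : ℂ → ℝ} (hV : ContDiffOn ℝ 2 V DD) (hκ : ContinuousOn κ DD)
    (heq : ∀ z ∈ DD, lap V z = κ z * V z) {z₁ : ℂ} (hz₁ : z₁ ∈ DD)
    (h : ∀ᶠ z in 𝓝 z₁, V z = 0) : ∀ z ∈ DD, V z = 0 := by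
  set S : Set ℂ := {z | ∀ᶠ y in 𝓝 z, V y = 0} with hS
  have hSo : IsOpen S := isOpen_iff_eventually.2 fun z hz => (eventually_eventually_nhds.2 hz)
  have hsub : DD ⊆ S := by
    refine (convex_ball (0 : ℂ) 1).isPreconnected.subset_of_closure_inter_subset hSo
      ⟨z₁, hz₁, h⟩ ?_
    rintro z ⟨hzc, hz⟩
    have hnh : DD ∈ 𝓝 z := isOpen_ball.mem_nhds hz
    -- value zero
    have hVz : V z = 0 := by
      by_contra hne
      have hc : ContinuousAt V z := hV.continuousOn.continuousAt hnh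
      have h1 : ∀ᶠ y in 𝓝 z, V y ≠ 0 := hc.eventually_ne hne
      obtain ⟨y, hy1, hy2⟩ := mem_closure_iff_nhds.1 hzc _ h1
      exact hy1 hy2.self_of_nhds
    -- local bound
    have hκc : ContinuousAt κ z := hκ.continuousAt hnh
    have hb : ∀ᶠ y in 𝓝 z, |κ y| < |κ z| + 1 :=
      (hκc.abs).eventually (gt_mem_nhds (lt_add_one _))
    obtain ⟨R, hR, hRs⟩ := Metric.eventually_nhds_iff_ball.1 (hb.and hnh)
    rcases hartman_wintner (v := V) (z₀ := z) (R := R) (K := |κ z| + 1) hR (hV.mono fun y hy => (hRs y hy).2) (fun y hy => by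
      rw [heq y (hRs y hy).2, abs_mul]
      exact mul_le_mul_of_nonneg_right (hRs y hy).1.le (abs_nonneg _)) hVz with h1 | h1
    · exact h1
    · obtain ⟨m, a, C, ρ, ha, hρ, hρR, hest⟩ := h1
      have hna : 0 < ‖a‖ := norm_pos_iff.2 ha
      have hδ : 0 < min ρ (‖a‖ / (|C| + 1)) := lt_min hρ (by positivity)
      obtain ⟨y, hy1, hy2⟩ := mem_closure_iff_nhds.1 hzc _ (ball_mem_nhds z hδ)
      by_cases hyz : y = z
      · rw [hyz] at hy2; exact hy2
      exfalso
      have hyρ : y ∈ ball z ρ := ball_subset_ball (min_le_left _ _) hy1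
      have h2 := hest y hyρ
      rw [cgr_of_eventually hy2, zero_sub, norm_neg, norm_mul, norm_pow] at h2
      have hd : 0 < ‖y - z‖ := norm_pos_iff.2 (sub_ne_zero.2 hyz)
      have h3 : ‖y - z‖ < ‖a‖ / (|C| + 1) := by
        have := mem_ball_iff_norm.1 hy1
        exact this.trans_le (min_le_right _ _)
      rw [lt_div_iff₀ (by positivity)] at h3
      have h4 : 0 < ‖y - z‖ ^ m := pow_pos hd m
      have h5 : ‖a‖ ≤ C * ‖y - z‖ := by
        have h6 : ‖y - z‖ ^ m * ‖a‖ ≤ ‖y - z‖ ^ m * (C * ‖y - z‖) := by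
          calc ‖y - z‖ ^ m * ‖a‖ = ‖a‖ * ‖y - z‖ ^ m := mul_comm _ _
            _ ≤ C * ‖y - z‖ ^ (m + 1) := h2
            _ = ‖y - z‖ ^ m * (C * ‖y - z‖) := by ring
        exact le_of_mul_le_mul_left h6 h4
      have h7 : C * ‖y - z‖ ≤ |C| * ‖y - z‖ := mul_le_mul_of_nonneg_right (le_abs_self C) hd.le
      nlinarith only [h3, h5, h7, hd]
  intro z hz
  exact (hsub hz).self_of_nhds

/-- Every target is a multiple of a limit of functions without critical points, and satisfies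
the inequality (I). -/
theorem target_limit {f F : ℂ → ℂ} (hf : Conf f F)
    (hT : TailU F) (hD : DiscThmN f F) {μ : ℝ} {U : ℂ → ℝ} (hU : Target F μ U) :
    ContinuousOn (fun y => -(μ * ‖F y‖ ^ 2)) DD ∧ (∃ z₂ ∈ DD, U z₂ ≠ 0) ∧
    ∃ (w : ℂ → ℝ) (c : ℝ), c ≠ 0 ∧ ContDiffOn ℝ 2 w DD ∧ (∀ y ∈ DD, w y - c * U y = 0) ∧
      IneqI DD (fun z => ‖F z‖ ^ 2) μ w ∧ ApproxN w := by
  -- a point where `U` does not vanish
  obtain ⟨z₂, hz₂, hU₂⟩ : ∃ z₂ ∈ DD, U z₂ ≠ 0 := by
    by_contra hcon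
    push Not at hcon
    have h1 : ∫ z in DD, ‖F z‖ ^ 2 * U z ^ 2 = 0 :=
      setIntegral_eq_zero_of_forall_eq_zero fun y hy => by rw [hcon y hy]; ring
    rw [hU.norm] at h1
    exact one_ne_zero h1
  have hcont : ContinuousOn U DD := hU.smooth.continuousOn
  have hopen : IsOpen (DD ∩ U ⁻¹' {0}ᶜ) :=
    hcont.isOpen_inter_preimage isOpen_ball isOpen_compl_singleton
  obtain ⟨ε, hε, hεs⟩ := Metric.nhds_basis_closedBall.mem_iff.1 (hopen.mem_nhds ⟨hz₂, hU₂⟩)
  have hB : ∀ y ∈ closedBall z₂ ε, y ∈ DD ∧ U y ≠ 0 := fun y hy => ⟨(hεs hy).1, (hεs hy).2⟩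
  obtain ⟨w, hw, h2, hg, hm, hn, hE, hI, hweq, hap, hP, z₁, hz₁, hwz₁⟩ :=
    exists_limitN hf hT hD hU hε hB
  have hE' : ∫ z in DD, gsq w z ≤ μ * ∫ z in DD, ‖F z‖ ^ 2 * w z ^ 2 := by
    rw [hn]; simpa only [mul_one] using hE
  have hpic := picone hf hU hw h2 hg hE' hP
  obtain ⟨c, hc⟩ := eq_const_mul hU.smooth hw hpic hε hB
  have hc0 : c ≠ 0 := by
    rintro rfl
    exact hwz₁ (by rw [hc z₁ hz₁, zero_mul])
  have hFcont : ContinuousOn F DD := by
    have hfd : DifferentiableOn ℂ f DD := fun y hy =>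
      (hf.deriv y hy).differentiableAt.differentiableWithinAt
    have h1 : ContinuousOn (deriv f) DD := (hfd.deriv isOpen_ball).continuousOn
    exact h1.congr fun y hy => ((hf.deriv y hy).deriv).symm
  have hκ : ContinuousOn (fun y => -(μ * ‖F y‖ ^ 2)) DD :=
    (continuousOn_const.mul (hFcont.norm.pow 2)).neg
  -- `w = c U` in the whole disc
  have hcU : ContDiffOn ℝ 2 (fun y => c * U y) DD := contDiffOn_const.mul hU.smooth
  have hall : ∀ y ∈ DD, w y - c * U y = 0 := by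
    refine uc_of (V := fun y => w y - c * U y) (hw.sub hcU) hκ ?_ hz₂ ?_
    · intro y hy
      have e1 := CompA.lap_sub hw hcU hy
      have e2 : lap (fun y => c * U y) y = c * lap U y := tgt_lap_smul c U y
      have e3 := hweq y hy
      have e4 := hU.eqn y hy
      have e5 : lap w y = -(μ * ‖F y‖ ^ 2 * w y) := by linarith only [e3]
      have e6 : lap U y = -(μ * ‖F y‖ ^ 2 * U y) := by linarith only [e4]
      rw [e1, e2, e5, e6]
      ring
    · filter_upwards [closedBall_mem_nhds z₂ hε] with y hy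
      rw [hc y hy, sub_self]
  exact ⟨hκ, ⟨z₂, hz₂, hU₂⟩, w, c, hc0, hw, hall, hI, hap⟩

/-- **No critical points at all** for the transplanted eigenfunction. -/
theorem target_no_crit_of {f F : ℂ → ℂ} (hf : Conf f F)
    (hT : TailU F) (hD : DiscThmN f F) {μ : ℝ} {U : ℂ → ℝ} (hU : Target F μ U) {z : ℂ}
    (hz : z ∈ DD) : gsq U z ≠ 0 := by
  by_cases hUz : U z ≠ 0
  · exact target_no_crit hf hT hD.toDisc hU hz hUz
  push Not at hUz
  intro hgz
  obtain ⟨hκ, ⟨z₂, hz₂, hU₂⟩, w, c, hc0, hw, hall, hI, hap⟩ := target_limit hf hT hD hU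
  -- the leading term of `U` at `z`
  have hnh : DD ∈ 𝓝 z := isOpen_ball.mem_nhds hz
  have hκc : ContinuousAt (fun y => -(μ * ‖F y‖ ^ 2)) z := hκ.continuousAt hnh
  have hb : ∀ᶠ y in 𝓝 z, |-(μ * ‖F y‖ ^ 2)| < |-(μ * ‖F z‖ ^ 2)| + 1 :=
    (hκc.abs).eventually (gt_mem_nhds (lt_add_one _))
  obtain ⟨R, hR, hRs⟩ := Metric.eventually_nhds_iff_ball.1 (hb.and hnh)
  have heqU : ∀ y ∈ DD, lap U y = -(μ * ‖F y‖ ^ 2) * U y := fun y hy => by
    have e4 := hU.eqn y hy
    linarith only [e4]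
  rcases hartman_wintner (v := U) (z₀ := z) (R := R) (K := |-(μ * ‖F z‖ ^ 2)| + 1) hR (hU.smooth.mono fun y hy => (hRs y hy).2)
    (fun y hy => by
      rw [heqU y (hRs y hy).2, abs_mul]
      exact mul_le_mul_of_nonneg_right (hRs y hy).1.le (abs_nonneg _)) hUz with h1 | h1
  · exact hU₂ (uc_of hU.smooth hκ heqU hz h1 z₂ hz₂)
  obtain ⟨m, a, C, ρ, ha, hρ, hρR, hest⟩ := h1
  have hcz : cgr U z = 0 := (cgr_eq_zero_iff U z).2 hgz
  have hm1 : 1 ≤ m := by
    rcases Nat.eq_zero_or_pos m with h0 | h0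
    · exfalso
      have h3 := hest z (mem_ball_self hρ)
      rw [hcz, h0] at h3
      simp at h3
      exact ha h3
    · exact h0
  have hna : 0 < ‖a‖ := norm_pos_iff.2 ha
  -- the radius
  have hz1 : ‖z‖ < 1 := by simpa using hz
  set t : ℝ := min (ρ / 2) (min ((1 - ‖z‖) / 2) (‖a‖ / (4 * (|C| + 1)))) with ht
  have ht0 : 0 < t := by
    refine lt_min (by linarith) (lt_min (by linarith) (by positivity))
  have htρ : t < ρ := (min_le_left _ _).trans_lt (by linarith)
  have htz : t ≤ (1 - ‖z‖) / 2 := (min_le_right _ _).trans (min_le_left _ _)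
  have hta : t * (4 * (|C| + 1)) ≤ ‖a‖ := by
    have : t ≤ ‖a‖ / (4 * (|C| + 1)) := (min_le_right _ _).trans (min_le_right _ _)
    rwa [le_div_iff₀ (by positivity)] at this
  set R' : ℝ := (1 + ‖z‖) / 2 with hR'
  have hR'1 : R' < 1 := by rw [hR']; linarith
  have hsub : closedBall z t ⊆ closedBall (0 : ℂ) R' := by
    intro y hy
    rw [mem_closedBall_zero_iff]
    have h3 : ‖y - z‖ ≤ t := mem_closedBall_iff_norm.1 hy
    have h4 : ‖y‖ ≤ ‖y - z‖ + ‖z‖ := by
      calc ‖y‖ = ‖(y - z) + z‖ := by rw [sub_add_cancel]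
        _ ≤ _ := norm_add_le _ _
    rw [hR']; linarith
  have hsubD : closedBall z t ⊆ DD := fun y hy => by
    have := hsub hy
    rw [mem_closedBall_zero_iff] at this
    rw [mem_ball_zero_iff]; linarith
  obtain ⟨wn, hwn, hwn0, hwx, hwy⟩ := hap
  -- a good index
  have hη : 0 < |c| * ‖a‖ * t ^ m / 8 := by
    have := abs_pos.2 hc0
    positivity
  have hx1 := (Metric.tendstoUniformlyOn_iff.1 (hwx R' hR'1)) _ hη
  have hy1 := (Metric.tendstoUniformlyOn_iff.1 (hwy R' hR'1)) _ hη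
  obtain ⟨n, hnx, hny⟩ := (hx1.and hy1).exists
  refine no_winding (h := cgr (wn n)) (U := DD) (a := (c : ℂ) * a) isOpen_ball (convex_ball 0 1)
    ht0 hm1 hsubD (cgr_contDiffOn isOpen_ball (hwn n)).continuousOn ?_ ?_
  · intro y hy h0
    exact hwn0 n y hy ((cgr_eq_zero_iff _ _).1 h0)
  · intro y hy
    have hyc : y ∈ closedBall z t := sphere_subset_closedBall hy
    have hyD := hsubD hyc
    have hny' : ‖y - z‖ = t := mem_sphere_iff_norm.1 hy
    -- the derivatives of `w` are those of `c U`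
    have hwU : w =ᶠ[𝓝 y] fun y => c * U y := by
      filter_upwards [isOpen_ball.mem_nhds hyD] with x hx
      have := hall x hx
      linarith
    have hUd : DifferentiableAt ℝ U y :=
      (hU.smooth.differentiableOn (by norm_num)).differentiableAt (isOpen_ball.mem_nhds hyD)
    have hfd : fderiv ℝ w y = c • fderiv ℝ U y := by
      rw [hwU.fderiv_eq, fderiv_const_mul hUd]
    have hpx : px w y = c * px U y := by simp [px, hfd]
    have hpy : py w y = c * py U y := by simp [py, hfd]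
    have e1 : cgr w y = c * cgr U y := by
      simp only [cgr, hpx, hpy]; push_cast; ring
    have e2 : ‖cgr (wn n) y - cgr w y‖ ≤ |px (wn n) y - px w y| + |py (wn n) y - py w y| := by
      have : cgr (wn n) y - cgr w y = ((px (wn n) y - px w y : ℝ) : ℂ) -
          Complex.I * ((py (wn n) y - py w y : ℝ) : ℂ) := by
        simp only [cgr]; push_cast; ring
      rw [this]
      refine (norm_sub_le _ _).trans ?_
      rw [norm_mul, Complex.norm_I, one_mul, Complex.norm_real, Complex.norm_real,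
        Real.norm_eq_abs, Real.norm_eq_abs]
    have e3 : |px (wn n) y - px w y| < |c| * ‖a‖ * t ^ m / 8 := by
      have := hnx y (hsub hyc)
      rwa [Real.dist_eq, abs_sub_comm] at this
    have e4 : |py (wn n) y - py w y| < |c| * ‖a‖ * t ^ m / 8 := by
      have := hny y (hsub hyc)
      rwa [Real.dist_eq, abs_sub_comm] at this
    have e5 : ‖cgr U y - a * (y - z) ^ m‖ ≤ |C| * t ^ (m + 1) := by
      refine (hest y (closedBall_subset_ball htρ hyc)).trans ?_
      rw [hny']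
      exact mul_le_mul_of_nonneg_right (le_abs_self C) (by positivity)
    have e6 : |C| * t ^ (m + 1) ≤ ‖a‖ * t ^ m / 4 := by
      have h5 : |C| * t ≤ ‖a‖ / 4 := by
        have : |C| * t ≤ t * (|C| + 1) := by nlinarith only [ht0]
        linarith
      calc |C| * t ^ (m + 1) = (|C| * t) * t ^ m := by ring
        _ ≤ (‖a‖ / 4) * t ^ m := mul_le_mul_of_nonneg_right h5 (by positivity)
        _ = _ := by ring
    have e7 : ‖(c : ℂ) * a * (y - z) ^ m‖ = |c| * ‖a‖ * t ^ m := by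
      rw [norm_mul, norm_mul, norm_pow, hny', Complex.norm_real, Real.norm_eq_abs]
    have e8 : cgr (wn n) y - (c : ℂ) * a * (y - z) ^ m =
        (cgr (wn n) y - cgr w y) + (c : ℂ) * (cgr U y - a * (y - z) ^ m) := by
      rw [e1]; ring
    rw [e7, e8]
    refine (norm_add_le _ _).trans_lt ?_
    rw [norm_mul, Complex.norm_real, Real.norm_eq_abs]
    have e9 : |c| * ‖cgr U y - a * (y - z) ^ m‖ ≤ |c| * (‖a‖ * t ^ m / 4) :=
      mul_le_mul_of_nonneg_left (e5.trans e6) (abs_nonneg _)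
    have e10 : 0 < |c| * ‖a‖ * t ^ m := by
      have := abs_pos.2 hc0
      positivity
    nlinarith only [e2, e3, e4, e9, e10]

end Vale.Agent.P071.Lim
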