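import Vale.Agent.P071.H969.Disc

set_option linter.all false

/-!
# The selected limit, together with approximations without critical points
-/

open MeasureTheory Metric Filter Topology Real
open scoped ContDiff ENNReal

namespace Vale.Agent.P071.Lim

theorem DiscThmN.toDisc {f F : ℂ → ℂ} (h : DiscThmN f F) : DiscThm f F := by
  intro ρ h1 h2 m m' h3 h4 h5 h6 r h7 h8
  obtain ⟨μ, u, a, b, -⟩ := h ρ h1 h2 m m' h3 h4 h5 h6 r h7 h8
  exact ⟨μ, u, a, b⟩

/-- `w` is a limit, in `C¹` on compact subsets of the disc, of functions without critical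
points. -/
def ApproxN (w : ℂ → ℝ) : Prop :=
  ∃ wn : ℕ → ℂ → ℝ, (∀ n, ContDiffOn ℝ 2 (wn n) DD) ∧ (∀ n, ∀ z ∈ DD, gsq (wn n) z ≠ 0) ∧
    (∀ R < 1, TendstoUniformlyOn (fun n => px (wn n)) (px w) atTop (closedBall 0 R)) ∧
    (∀ R < 1, TendstoUniformlyOn (fun n => py (wn n)) (py w) atTop (closedBall 0 R))

open SelA in
theorem selectN {f F : ℂ → ℂ} (hf : Conf f F) (hT : TailU F) (hD : DiscThmN f F)
    {μ : ℝ} {U : ℂ → ℝ} (hU : Target F μ U) {s : ℂ → ℝ} (hs : IsPolyFun s) {δ : ℝ} (hδ : 0 < δ) :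
    ∃ ε > 0, ∃ (r μ' : ℝ) (w : ℂ → ℝ), 1 - δ < r ∧ 0 < r ∧ r < 1 ∧ μ' ≤ μ + δ ∧
      (∀ z ∈ DD, |ε * s (f z)| ≤ δ ∧ |ε * s (f z)| ≤ 1 / 2) ∧
      DiscMin (kap f F (fun x => 1 + ε * s x) r) μ' w ∧
      IneqI DD (kap f F (fun x => 1 + ε * s x) r) μ' w ∧ (∀ z ∈ DD, gsq w z ≠ 0) ∧
      (∫ z in DD, ‖F z‖ ^ 2 * s (f z) * U z ^ 2) - δ ≤
        ∫ z in DD, kap f F (fun _ => 1) r z * s (f (r * z)) * w z ^ 2 := by
  have hs' : ContDiff ℝ ∞ s := poly_contDiff hs
  have hsc : Continuous s := hs'.continuous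
  obtain ⟨m₀, hm₀, hPoin⟩ := uniform_poincare hf hT
  obtain ⟨B, hB1, hBall⟩ := poly_bounds hf hs'
  have hB : ∀ z ∈ DD, |s (f z)| ≤ B := fun z hz => (hBall z hz).1
  obtain ⟨C, hC1, hup⟩ := upper hf hU hsc hB1 hB
  set S := ∫ z in DD, ‖F z‖ ^ 2 * s (f z) * U z ^ 2 with hS
  have hμ := hU.mu_pos
  set K := C + S ^ 2 + δ * |S| + 2 * B ^ 2 + C * |S| + C * δ + 2 * B ^ 2 * |S| with hK
  have hK0 : 0 ≤ K := by (clear * - hC1 hδ hB1; positivity)
  have hSabs := abs_nonneg S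
  have hfrac : 0 < δ / (μ + δ) := by (clear * - hδ hμ; positivity)
  obtain ⟨ε, hε, hεX⟩ := exists_eps
    (c := min (min 1 δ) (min (min (1 / 2) (m₀ / 16)) (min (δ / (μ + δ)) (δ / 2))))
    (D := 1 + B + 5 / 2 * B + (|S| + C) + K + δ) (by (clear * - hδ hm₀ hμ; positivity)) (by
      have : (0 : ℝ) ≤ B := by linarith only [hB1]
      linarith only [hδ, hB1, hC1, hK0, hSabs])
  have hBnn : (0 : ℝ) ≤ B := by linarith only [hB1]
  have c0 : ε ≤ 1 := by
    have := (hεX 1 (by linarith only [hδ, hB1, hC1, hK0, hSabs])).trans ((min_le_left _ _).trans (min_le_left _ _))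
    linarith only [this]
  have c1 : ε * B ≤ δ := (hεX B (by linarith only [hδ, hB1, hC1, hK0, hSabs])).trans ((min_le_left _ _).trans (min_le_right _ _))
  have c2 : ε * B ≤ 1 / 2 := (hεX B (by linarith only [hδ, hB1, hC1, hK0, hSabs])).trans
    ((min_le_right _ _).trans ((min_le_left _ _).trans (min_le_left _ _)))
  have c3 : ε * (5 / 2 * B) ≤ m₀ / 16 := (hεX _ (by linarith only [hδ, hB1, hC1, hK0, hSabs])).trans
    ((min_le_right _ _).trans ((min_le_left _ _).trans (min_le_right _ _)))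
  have c4 : ε * (|S| + C) ≤ δ / (μ + δ) := (hεX _ (by linarith only [hδ, hB1, hK0])).trans
    ((min_le_right _ _).trans ((min_le_right _ _).trans (min_le_left _ _)))
  have c5 : ε * K ≤ δ / 2 := (hεX _ (by linarith only [hδ, hB1, hC1, hSabs])).trans
    ((min_le_right _ _).trans ((min_le_right _ _).trans (min_le_right _ _)))
  have c6 : ε * δ ≤ 1 := (hεX _ (by linarith only [hB1, hC1, hK0, hSabs])).trans
    ((min_le_left _ _).trans (min_le_left _ _))
  have hsb : ∀ z ∈ DD, |ε * s (f z)| ≤ ε * B := fun z hz => by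
    rw [abs_mul, abs_of_pos hε]
    exact mul_le_mul_of_nonneg_left (hB z hz) hε.le
  -- the disc theorem
  have hρb : ∀ z ∈ DD, 1 / 2 ≤ 1 + ε * s (f z) ∧ 1 + ε * s (f z) ≤ 2 := fun z hz => by
    have := abs_le.1 ((hsb z hz).trans c2)
    constructor <;> linarith only [this]
  have hρc : Continuous (fun x : ℂ => 1 + ε * s x) := continuous_const.add (continuous_const.mul hsc)
  have hdisc := hD (fun x => 1 + ε * s x) (poly_affine hs ε)
    ⟨1 / 2, by norm_num, fun z hz => (hρb z hz).1⟩ (m₀ / 2) m₀ (by linarith only [hm₀]) (by linarith only [hm₀])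
    (by
      intro z hz
      rw [lap_affine hs', gsq_affine hs']
      obtain ⟨_, hl, hg⟩ := hBall z hz
      obtain ⟨hr1, _⟩ := hρb z hz
      have hr2 : 1 + ε * s (f z) ≤ 3 / 2 := by
        have := abs_le.1 ((hsb z hz).trans c2)
        linarith only [this]
      have h1 : (1 / 8 : ℝ) ≤ (1 + ε * s (f z)) ^ 3 := by
        have := pow_le_pow_left₀ (by norm_num : (0 : ℝ) ≤ 1 / 2) hr1 3
        norm_num at this ⊢
        exact this
      have h2 : -(m₀ / 2) * (1 + ε * s (f z)) ^ 3 ≤ -(m₀ / 16) := by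
        have := mul_le_mul_of_nonneg_left h1 (by linarith only [hm₀] : 0 ≤ m₀ / 2)
        linarith only [this]
      have h3 : |(1 + ε * s (f z)) * (ε * lap s (f z))| ≤ 3 / 2 * (ε * B) := by
        rw [abs_mul, abs_mul, abs_of_pos hε, abs_of_nonneg (by linarith only [hr1] : 0 ≤ 1 + ε * s (f z))]
        exact mul_le_mul hr2 (mul_le_mul_of_nonneg_left hl hε.le) (by (clear * - hε; positivity)) (by norm_num)
      have h4 : ε ^ 2 * gsq s (f z) ≤ ε * B := by
        have h5 : ε ^ 2 * gsq s (f z) ≤ ε ^ 2 * B := mul_le_mul_of_nonneg_left hg (sq_nonneg _)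
        have h6 : ε ^ 2 * B ≤ ε * B := by
          refine mul_le_mul_of_nonneg_right ?_ hBnn
          rw [pow_two]
          exact mul_le_of_le_one_right hε.le c0
        exact h5.trans h6
      have h7 := (abs_le.1 h3).1
      linarith only [c3, h2, h4, h7])
    (fun r hr hr1 φ hφ h0 => hPoin _ hρc hρb r hr hr1 φ hφ h0)
  -- choice of δ₁ and r
  obtain ⟨R, hR1, hfirst⟩ := liminf_first hf hT hD.toDisc hU (δ := μ * (ε * δ) / 8) (by (clear * - hμ hε hδ; positivity))
  obtain ⟨n, hn1, hn2, hn3⟩ := ((hup ε hε c0 c2).and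
    ((ev_gt hR1).and (ev_gt (show 1 - δ < 1 by linarith only [hδ])))).exists
  set r : ℝ := 1 - 1 / ((n : ℝ) + 2) with hr
  have hr0 : 0 < r := by
    have h1 : 1 / ((n : ℝ) + 2) < 1 := by
      rw [div_lt_one (by (clear * -; positivity))]
      have : (0 : ℝ) ≤ n := Nat.cast_nonneg n
      linarith only []
    linarith only [h1]
  have hr1 : r < 1 := by
    have : (0 : ℝ) < 1 / ((n : ℝ) + 2) := by (clear * -; positivity)
    linarith only [this]
  obtain ⟨μ', w, hw, hI, hN⟩ := hdisc r hr0 hr1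
  have hu := hn1 μ' w hw
  have hεδ : 0 < ε * δ := mul_pos hε hδ
  have hLpos : 0 < μ - μ * (ε * δ) / 8 := by
    have := mul_le_mul_of_nonneg_left c6 hμ.le
    linarith only [hμ, this]
  have hlow := lower hf hsc hB1 hB hε c2 hr0 hr1 hLpos.le
    (fun φ hφ h0 => hfirst r hn2 hr0 hr1 φ hφ h0) hw
  have hP : 1 - δ / (μ + δ) ≤ 1 + ε * S - C * ε ^ 2 := by
    have h1 := mul_le_mul_of_nonneg_left (neg_abs_le S) hε.le
    have h2 : C * ε ^ 2 ≤ ε * C := by
      have h3 : ε ^ 2 ≤ ε := by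
        rw [pow_two]
        exact mul_le_of_le_one_right hε.le c0
      rw [mul_comm ε C]
      exact mul_le_mul_of_nonneg_left h3 (by linarith only [hC1])
    linarith only [c4, h1, h2]
  have hPpos : 0 < 1 + ε * S - C * ε ^ 2 := by
    have : δ / (μ + δ) < 1 := by
      rw [div_lt_one (by (clear * - hμ hδ; positivity))]
      linarith only [hμ]
    linarith only [hP, this]
  refine ⟨ε, hε, r, μ', w, hn3, hr0, hr1, ?_, fun z hz => ⟨(hsb z hz).trans c1,
    (hsb z hz).trans c2⟩, hw, hI, hN, ?_⟩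
  · -- upper bound for the eigenvalue
    have hμ'0 : 0 ≤ μ' := by
      rw [← hw.energy]
      exact integral_nonneg fun z => gsq_nonneg w z
    have h1 : μ' * (μ / (μ + δ)) ≤ μ := by
      have h2 : 1 - δ / (μ + δ) = μ / (μ + δ) := by
        field_simp
        ring
      rw [← h2]
      exact (mul_le_mul_of_nonneg_left hP hμ'0).trans hu
    rw [← mul_div_assoc, div_le_iff₀ (by (clear * - hμ hδ; positivity))] at h1
    have h3 : μ * μ' ≤ μ * (μ + δ) := by linarith only [h1]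
    exact le_of_mul_le_mul_left h3 hμ
  · by_contra hcon
    push Not at hcon
    set Sw := ∫ z in DD, kap f F (fun _ => 1) r z * s (f (r * z)) * w z ^ 2 with hSw
    set L := μ - μ * (ε * δ) / 8 with hL
    have h1 : L * (1 - ε * Sw - 2 * ε ^ 2 * B ^ 2) * (1 + ε * S - C * ε ^ 2) ≤ μ :=
      (mul_le_mul_of_nonneg_right hlow hPpos.le).trans hu
    have h2 : 1 - ε * S + ε * δ - 2 * ε ^ 2 * B ^ 2 ≤ 1 - ε * Sw - 2 * ε ^ 2 * B ^ 2 := by
      have := mul_lt_mul_of_pos_left hcon hε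
      linarith only [this]
    have h3 := alg_Q (B := B) hε c0 hδ hC1 c5
    have h4 : L * (1 + ε * δ / 2) ≤ μ := by
      calc L * (1 + ε * δ / 2) ≤ L * ((1 - ε * S + ε * δ - 2 * ε ^ 2 * B ^ 2) *
            (1 + ε * S - C * ε ^ 2)) := mul_le_mul_of_nonneg_left h3 hLpos.le
        _ ≤ L * ((1 - ε * Sw - 2 * ε ^ 2 * B ^ 2) * (1 + ε * S - C * ε ^ 2)) :=
            mul_le_mul_of_nonneg_left (mul_le_mul_of_nonneg_right h2 hPpos.le) hLpos.le
        _ ≤ μ := by linarith only [h1]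
    have h5 : 0 < μ * (ε * δ) := mul_pos hμ hεδ
    have h6 : L * (1 + ε * δ / 2) = μ + μ * (ε * δ) * (3 / 8 - (ε * δ) / 16) := by
      rw [hL]
      ring
    rw [h6] at h4
    have h7 : 0 < μ * (ε * δ) * (3 / 8 - (ε * δ) / 16) := mul_pos h5 (by linarith only [c6])
    linarith only [h4, h7]

open SelC in
theorem exists_limitN {f F : ℂ → ℂ} (hf : Conf f F) (hT : TailU F) (hD : DiscThmN f F)
    {μ : ℝ} {U : ℂ → ℝ} (hU : Target F μ U) {z₀ : ℂ} {ε : ℝ} (hε : 0 < ε)
    (hB : ∀ z ∈ closedBall z₀ ε, z ∈ DD ∧ U z ≠ 0) :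
    ∃ w : ℂ → ℝ, ContDiffOn ℝ 2 w DD ∧
      IntegrableOn (fun z => ‖F z‖ ^ 2 * w z ^ 2) DD ∧ IntegrableOn (gsq w) DD ∧
      ∫ z in DD, ‖F z‖ ^ 2 * w z = 0 ∧ ∫ z in DD, ‖F z‖ ^ 2 * w z ^ 2 = 1 ∧
      ∫ z in DD, gsq w z ≤ μ ∧ IneqI DD (fun z => ‖F z‖ ^ 2) μ w ∧
      (∀ z ∈ DD, -lap w z = μ * ‖F z‖ ^ 2 * w z) ∧ ApproxN w ∧
      ∫⁻ z in DD, ENNReal.ofReal ((‖F z‖ ^ 2 + gsq U z) * w z ^ 2) / ENNReal.ofReal (U z ^ 2) < ⊤ ∧
      ∃ z₁ ∈ closedBall z₀ ε, w z₁ ≠ 0 := by
  have hU1 : ContDiffOn ℝ 1 U DD := hU.smooth.of_le (by norm_num)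
  have hBD : closedBall z₀ ε ⊆ DD := fun z hz => (hB z hz).1
  have hA := conf_area hf
  -- the radius of a disc containing the ball
  obtain ⟨zm, hzm, hmax⟩ := (isCompact_closedBall z₀ ε).exists_isMaxOn
    ⟨z₀, mem_closedBall_self hε.le⟩ continuous_norm.continuousOn
  have hR0 : ‖zm‖ < 1 := by simpa only [mem_ball, dist_zero_right] using hBD hzm
  -- positivity of the integral of the bump
  have i1 : IntegrableOn (fun z => ‖F z‖ ^ 2 * U z ^ 2 * bmp z₀ ε z) DD :=
    integrable_mul_bdd hU.int_sq (bmp_cont z₀ ε).continuousOn (C := 1) fun z _ => by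
      rw [abs_of_nonneg (bmp_nonneg _ _ _)]; exact bmp_le_one hε _ _
  have hI0 : 0 < ∫ z in DD, ‖F z‖ ^ 2 * U z ^ 2 * bmp z₀ ε z := by
    rw [setIntegral_pos_iff_support_of_nonneg_ae ?_ i1]
    · refine lt_of_lt_of_le (measure_ball_pos volume z₀ hε) (measure_mono ?_)
      intro z hz
      have hz1 : z ∈ closedBall z₀ ε := ball_subset_closedBall hz
      refine ⟨?_, hBD hz1⟩
      rw [Function.mem_support]
      have h1 := kpos hf (hBD hz1)
      have h2 := (hB z hz1).2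
      have h3 := bmp_pos hε hz
      (clear * - h1 h2 h3; positivity)
    · refine Eventually.of_forall fun z => ?_
      have := bmp_nonneg z₀ ε z
      show 0 ≤ ‖F z‖ ^ 2 * U z ^ 2 * bmp z₀ ε z
      (clear * - this; positivity)
  set I₀ := ∫ z in DD, ‖F z‖ ^ 2 * U z ^ 2 * bmp z₀ ε z with hI₀
  set A := ∫ z in DD, ‖F z‖ ^ 2 with hAdef
  have hA0 : 0 ≤ A := integral_nonneg fun z => by (clear * -; positivity)
  have hμ := hU.mu_pos
  -- the constant
  set N : ℝ := (A + μ + 1) / I₀ with hN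
  have hNI : N * I₀ = A + μ + 1 := by rw [hN, div_mul_cancel₀ _ hI0.ne']
  have hN0 : 0 ≤ N := by rw [hN]; (clear * - hμ hI0; positivity)
  -- the small parameters
  set δ : ℕ → ℝ := fun j => 1 / ((j : ℝ) + 2) with hδdef
  have hδ : ∀ j, 0 < δ j := fun j => by simp only [hδdef]; (clear * -; positivity)
  have hδ1 : ∀ j, δ j ≤ 1 / 2 := fun j => by
    simp only [hδdef]
    exact one_div_le_one_div_of_le (by norm_num) (by linarith only [])
  have hδ0 : Tendsto δ atTop (𝓝 0) := by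
    have h := tendsto_one_div_add_atTop_nhds_zero_nat (𝕜 := ℝ)
    have h2 := (tendsto_add_atTop_iff_nat (f := fun n : ℕ => (1 : ℝ) / ((n : ℝ) + 1)) 1).2 h
    refine h2.congr fun n => ?_
    simp only [hδdef]
    push_cast
    ring_nf
  have hpoly : ∀ j, ∃ s : ℂ → ℝ, IsPolyFun s ∧
      ∀ z ∈ DD, |s (f z) - Psi N z₀ ε F U (δ j) z| ≤ δ j := fun j =>
    exists_poly hf (Psi_cont hf hU1 (hδ j)) (Psi_compact (hδ j)) (Psi_sub (hδ j)) (hδ j)
  choose s hs hsb using hpoly
  have hsel := fun j => selectN hf hT hD hU (hs j) (hδ j)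
  choose e he r m w hr1 hr0 hr2 hm hes hdm hI hcrN hcmp using hsel
  have hrlim : Tendsto r atTop (𝓝 1) := by
    refine tendsto_of_tendsto_of_tendsto_of_le_of_le (g := fun j => 1 - δ j) (h := fun _ => 1)
      ?_ tendsto_const_nhds (fun j => (hr1 j).le) (fun j => (hr2 j).le)
    simpa only [sub_zero] using hδ0.const_sub 1
  have hsc : ∀ j, Continuous (s j) := fun j => continuous_polyFun (hs j)
  have hρc : ∀ j, Continuous (fun x => 1 + e j * s j x) := fun j =>
    continuous_const.add (continuous_const.mul (hsc j))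
  have hρb : ∀ j, ∀ z ∈ DD, 1 / 2 ≤ 1 + e j * s j (f z) ∧ 1 + e j * s j (f z) ≤ 2 := by
    intro j z hz
    have := abs_le.1 (hes j z hz).2
    constructor <;> linarith only [this]
  obtain ⟨ν, W, μ₀, hν, hWs, hμ₀, hW0, hWx, hWy, hWeq, hWi, hWg, hWm, hWn, hWe⟩ :=
    limit_of_discMin hf hT (ρ := fun j x => 1 + e j * s j x) (r := r) (μ := m) (u := w)
      (M := μ + 1) hρc hρb
      (fun d hd => by
        filter_upwards [hδ0.eventually (gt_mem_nhds hd)] with j hj z hz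
        have := (hes j z hz).1
        simp only [add_sub_cancel_left]
        linarith only [hj, this])
      (fun j => ⟨hr0 j, hr2 j⟩) hrlim (fun j => by linarith only [hm j, hδ1 j]) hdm
  have hW1 : ContDiffOn ℝ 1 W DD := hWs.of_le (by norm_num)
  have hνt := hν.tendsto_atTop
  -- the eigenvalue
  have hle : μ₀ ≤ μ := by
    have h1 : Tendsto (fun n => μ + δ (ν n)) atTop (𝓝 (μ + 0)) :=
      tendsto_const_nhds.add (hδ0.comp hνt)
    rw [add_zero] at h1
    exact le_of_tendsto_of_tendsto' hμ₀ h1 fun n => hm (ν n)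
  have hge : μ ≤ μ₀ := by
    have := hU.minimal W hW1 hWi hWg hWm
    rw [hWn, mul_one] at this
    linarith only [hWe, this]
  have hμeq : μ₀ = μ := le_antisymm hle hge
  subst hμeq
  have hrν : ∀ n, 0 < r (ν n) ∧ r (ν n) < 1 := fun n => ⟨hr0 _, hr2 _⟩
  have hrν1 : Tendsto (fun n => r (ν n)) atTop (𝓝 1) := hrlim.comp hνt
  have hδν : Tendsto (fun n => δ (ν n)) atTop (𝓝 0) := hδ0.comp hνt
  have hptw : ∀ z ∈ DD, z ∈ closedBall (0 : ℂ) ‖z‖ ∧ ‖z‖ < 1 := fun z hz =>
    ⟨by simp, by simpa using hz⟩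
  -- inequality (I)
  have hII : IneqI DD (fun z => ‖F z‖ ^ 2) μ₀ W := by
    refine ineqI_of_tendsto (κ := fun n => kap f F (fun x => 1 + e (ν n) * s (ν n) x) (r (ν n)))
      (μ := fun n => m (ν n)) (u := fun n => w (ν n)) hμ hμ₀ ?_ ?_ ?_ ?_ ?_ ?_ (fun n => hI (ν n))
    · intro z hz
      have h1 := kap_tendsto hf hrν1 hz
      have h2 : Tendsto (fun n => 1 + e (ν n) * s (ν n) (f ((r (ν n) : ℂ) * z))) atTop
          (𝓝 (1 + 0)) := by
        refine tendsto_const_nhds.add ?_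
        refine squeeze_zero_norm (fun n => ?_) hδν
        rw [Real.norm_eq_abs]
        exact (hes (ν n) _ (scale_mem (hrν n).1 (hrν n).2 hz)).1
      have h3 := h1.mul h2
      simp only [add_zero, mul_one] at h3
      refine h3.congr fun n => ?_
      rw [kap_eq f F (fun x => 1 + e (ν n) * s (ν n) x) (r (ν n)) z]
    · intro z hz
      exact (hW0 ‖z‖ (hptw z hz).2).tendsto_at (hptw z hz).1
    · intro z hz
      exact (hWx ‖z‖ (hptw z hz).2).tendsto_at (hptw z hz).1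
    · intro z hz
      exact (hWy ‖z‖ (hptw z hz).2).tendsto_at (hptw z hz).1
    · intro n
      have h1 := (kap_cont hf (hrν n).1 (hrν n).2).mul (scale_cont
        ((hρc (ν n)).comp_continuousOn (contf hf)) (hrν n).1 (hrν n).2)
      refine h1.congr fun z _ => ?_
      rw [kap_eq f F (fun x => 1 + e (ν n) * s (ν n) x) (r (ν n)) z]
      rfl
    · intro n
      exact (hdm (ν n)).smooth.of_le (by norm_num)
  -- the comparison
  set B : ℕ → ℝ := fun n => ∫ z in DD, kap f F (fun _ => 1) (r (ν n)) z *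
    bmp z₀ ε (r (ν n) * z) * w (ν n) z ^ 2 with hBdef
  set P : ℕ → ℝ := fun n => ∫ z in DD, kap f F (fun _ => 1) (r (ν n)) z *
    HH F U (δ (ν n)) (r (ν n) * z) * w (ν n) z ^ 2 with hPdef
  have hev : ∀ᶠ n in atTop, 1 - 4 * δ (ν n) ≤ N * B n - P n := by
    have h1 : ∀ᶠ n in atTop, δ (ν n) < (1 - ‖zm‖) / 2 :=
      hδν.eventually (gt_mem_nhds (by linarith only [hR0]))
    filter_upwards [h1] with n hn
    have hsub : closedBall z₀ ε ⊆ closedBall 0 (1 - 2 * δ (ν n)) := by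
      intro z hz
      have h2 : ‖z‖ ≤ ‖zm‖ := hmax hz
      rw [mem_closedBall_zero_iff]
      linarith only [hn, h2]
    have h2 := lhs_bound hf hU hε (N := N) (hδ (ν n)) hsub (hsc (ν n)) (hsb (ν n))
    have h3 := rhs_bound hf hU1 hN0 (hδ (ν n)) (hsc (ν n)) (hsb (ν n)) (hρc (ν n))
      (fun z hz => (hρb (ν n) z hz).1) (hrν n).1 (hrν n).2 (hdm (ν n))
    have h4 := hcmp (ν n)
    have h5 : N * I₀ - A - μ₀ = 1 := by rw [hNI]; ring
    simp only [hBdef, hPdef]
    linarith only [hNI, h2, h3, h4]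
  have hwc : ∀ n, ContinuousOn (w (ν n)) DD := fun n => (hdm (ν n)).smooth.continuousOn
  have hBlim : Tendsto B atTop (𝓝 (∫ z in DD, ‖F z‖ ^ 2 * bmp z₀ ε z * W z ^ 2)) :=
    lim_bmp hf hε hBD hrν hrν1 hwc hWs.continuousOn hW0
  have hP0 : ∀ n, 0 ≤ P n := fun n => integral_nonneg fun z => by
    have h1 := kap_nonneg f F (r (ν n)) z
    have h2 := HH_nonneg (F := F) (U := U) (hδ (ν n)) (r (ν n) * z)
    show 0 ≤ kap f F (fun _ => 1) (r (ν n)) z *
      HH F U (δ (ν n)) (r (ν n) * z) * w (ν n) z ^ 2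
    (clear * - h1 h2; positivity)
  refine ⟨W, hWs, hWi, hWg, hWm, hWn, hWe, hII, hWeq, ⟨fun n => w (ν n), fun n => (hdm (ν n)).smooth, fun n => hcrN (ν n), hWx, hWy⟩, ?_, ?_⟩
  · -- Fatou
    have hevC : ∀ᶠ n in atTop, P n ≤ N * ((∫ z in DD, ‖F z‖ ^ 2 * bmp z₀ ε z * W z ^ 2) + 1) + 1 := by
      have h1 := hBlim.eventually (gt_mem_nhds (lt_add_one _))
      filter_upwards [hev, h1] with n hn hn1
      have h2 := hδ1 (ν n)
      have h3 : N * B n ≤ N * ((∫ z in DD, ‖F z‖ ^ 2 * bmp z₀ ε z * W z ^ 2) + 1) :=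
        mul_le_mul_of_nonneg_left hn1.le hN0
      linarith only [hn, h2, h3]
    have hmeas : ∀ n, AEMeasurable (fun z => ENNReal.ofReal
        (kap f F (fun _ => 1) (r (ν n)) z * HH F U (δ (ν n)) (r (ν n) * z) * w (ν n) z ^ 2))
        (volume.restrict DD) := by
      intro n
      refine ENNReal.measurable_ofReal.comp_aemeasurable ?_
      exact ((((kap_cont hf (hrν n).1 (hrν n).2).mul
        (scale_cont (HH_cont hf hU1 (hδ (ν n))) (hrν n).1 (hrν n).2)).mul
        ((hwc n).pow 2))).aemeasurable measurableSet_ball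
    have h1 : ∫⁻ z in DD, ENNReal.ofReal ((‖F z‖ ^ 2 + gsq U z) * W z ^ 2) /
        ENNReal.ofReal (U z ^ 2) ≤ ∫⁻ z in DD, liminf (fun n => ENNReal.ofReal
        (kap f F (fun _ => 1) (r (ν n)) z * HH F U (δ (ν n)) (r (ν n) * z) * w (ν n) z ^ 2))
        atTop := by
      refine lintegral_mono_ae ((ae_restrict_iff' measurableSet_ball).2
        (Eventually.of_forall fun z hz => ?_))
      exact fatou_pt hf hU1 hrν hrν1 (fun n => hδ (ν n)) hδν hW0 hz
    have h2 := lintegral_liminf_le' (μ := volume.restrict DD) (u := atTop) hmeas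
    have h3 : ∀ n, ∫⁻ z in DD, ENNReal.ofReal
        (kap f F (fun _ => 1) (r (ν n)) z * HH F U (δ (ν n)) (r (ν n) * z) * w (ν n) z ^ 2) =
        ENNReal.ofReal (P n) := by
      intro n
      obtain ⟨Cw, hCw⟩ := (hdm (ν n)).bg.2
      symm
      refine ofReal_integral_eq_lintegral_ofReal ?_ ?_
      · exact int_ok hf (hrν n).1 (hrν n).2 (HH_cont hf hU1 (hδ (ν n))) (hwc n)
          (fun z hz => (hCw z hz).1)
      · refine Eventually.of_forall fun z => ?_
        have h1 := kap_nonneg f F (r (ν n)) z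
        have h2 := HH_nonneg (F := F) (U := U) (hδ (ν n)) (r (ν n) * z)
        show 0 ≤ kap f F (fun _ => 1) (r (ν n)) z *
          HH F U (δ (ν n)) (r (ν n) * z) * w (ν n) z ^ 2
        (clear * - h1 h2; positivity)
    have h4 : liminf (fun n => ∫⁻ z in DD, ENNReal.ofReal
        (kap f F (fun _ => 1) (r (ν n)) z * HH F U (δ (ν n)) (r (ν n) * z) * w (ν n) z ^ 2))
        atTop ≤ ENNReal.ofReal
        (N * ((∫ z in DD, ‖F z‖ ^ 2 * bmp z₀ ε z * W z ^ 2) + 1) + 1) := by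
      refine liminf_le_of_frequently_le' ?_
      refine (hevC.mono fun n hn => ?_).frequently
      rw [h3 n]
      exact ENNReal.ofReal_le_ofReal hn
    exact lt_of_le_of_lt (h1.trans (h2.trans h4)) ENNReal.ofReal_lt_top
  · -- W does not vanish on the ball
    by_contra hcon
    push Not at hcon
    have hz : ∫ z in DD, ‖F z‖ ^ 2 * bmp z₀ ε z * W z ^ 2 = 0 := by
      refine setIntegral_eq_zero_of_forall_eq_zero fun z _ => ?_
      by_cases hzb : z ∈ closedBall z₀ ε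
      · rw [hcon z hzb]; ring
      · rw [bmp_eq_zero hε hzb]; ring
    have h1 : Tendsto (fun n => N * B n + 4 * δ (ν n)) atTop (𝓝 (N * 0 + 4 * 0)) := by
      rw [hz] at hBlim
      exact (hBlim.const_mul N).add (hδν.const_mul 4)
    simp only [mul_zero, add_zero] at h1
    have h2 : (1 : ℝ) ≤ 0 := by
      refine ge_of_tendsto h1 ?_
      filter_upwards [hev] with n hn
      have := hP0 n
      linarith only [hn, this]
    linarith only [h2]

end Vale.Agent.P071.Lim
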